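import Mathlib

/-!
# P045 gadget: offsets in general position

For a type with centre at the origin, the slope `s` line through the centre and the parallel of
slope `t` with offset `v t` meet at abscissa `v t / (s - t)`.
-/

open Finset
open scoped Classical

namespace Vale.Agent.P045.Gad

variable {F : Type*} [Field F]

/-- Abscissa, relative to the centre, of the meeting point. -/
def qx (v : F → F) (s t : F) : F := v t / (s - t)

/-- Collinearity determinant of the points `(xᵢ, sᵢ xᵢ)`. -/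
def det3 (s₁ s₂ s₃ x₁ x₂ x₃ : F) : F :=
  x₁ * x₂ * (s₂ - s₁) + x₂ * x₃ * (s₃ - s₂) + x₃ * x₁ * (s₁ - s₃)

theorem det3_rot (s₁ s₂ s₃ x₁ x₂ x₃ : F) :
    det3 s₁ s₂ s₃ x₁ x₂ x₃ = det3 s₂ s₃ s₁ x₂ x₃ x₁ := by
  simp only [det3]; ring

/-- Offsets on `U` in general position with respect to first slopes in `S'`. -/
structure Generic (S' U : Finset F) (v : F → F) : Prop where
  ne_zero : ∀ t ∈ U, v t ≠ 0
  inj : ∀ s ∈ S', ∀ t ∈ U, ∀ t' ∈ U, s ≠ t → s ≠ t' → qx v s t = qx v s t' → t = t'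
  det : ∀ s₁ ∈ S', ∀ s₂ ∈ S', ∀ s₃ ∈ S', ∀ t₁ ∈ U, ∀ t₂ ∈ U, ∀ t₃ ∈ U,
    s₁ ≠ s₂ → s₂ ≠ s₃ → s₃ ≠ s₁ → t₁ ≠ t₂ → t₂ ≠ t₃ → t₃ ≠ t₁ →
    s₁ ≠ t₁ → s₂ ≠ t₂ → s₃ ≠ t₃ →
    det3 s₁ s₂ s₃ (qx v s₁ t₁) (qx v s₂ t₂) (qx v s₃ t₃) ≠ 0

theorem qx_update_self (v : F → F) (t a s : F) :
    qx (Function.update v t a) s t = a / (s - t) := by simp [qx]

theorem qx_update_of_ne (v : F → F) {t t' : F} (h : t' ≠ t) (a s : F) :
    qx (Function.update v t a) s t' = qx v s t' := by simp [qx, h]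

/-- The values of the new offset that spoil injectivity. -/
noncomputable def injBad (S' U : Finset F) (v : F → F) (t : F) : Finset F :=
  (S' ×ˢ U).image fun p => qx v p.1 p.2 * (p.1 - t)

/-- The values of the new offset that spoil general position. -/
noncomputable def detBad (S' U : Finset F) (v : F → F) (t : F) : Finset F :=
  (S' ×ˢ S' ×ˢ S' ×ˢ U ×ˢ U).image fun p =>
    let x₁ := qx v p.1 p.2.2.2.1;
    let x₂ := qx v p.2.1 p.2.2.2.2;
    -(x₁ * x₂ * (p.2.1 - p.1)) / (x₂ * (p.2.2.1 - p.2.1) + x₁ * (p.1 - p.2.2.1)) * (p.2.2.1 - t)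

/-- Adding one offset outside the bad values. -/
theorem Generic.insert_step {S' U : Finset F} {v : F → F} (h : Generic S' U v) {t a : F}
    (ht : t ∉ U) (ha0 : a ≠ 0) (ha1 : a ∉ injBad S' U v t) (ha2 : a ∉ detBad S' U v t) :
    Generic S' (insert t U) (Function.update v t a) := by
  have hne : ∀ {u}, u ∈ U → u ≠ t := fun hu e => ht (e ▸ hu)
  refine ⟨fun u hu => ?_, ?_, ?_⟩
  · rcases mem_insert.1 hu with rfl | hu
    · simpa using ha0
    · simpa [hne hu] using h.ne_zero u hu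
  · intro s hs u hu u' hu' hsu hsu' he
    rcases mem_insert.1 hu with rfl | hu1 <;> rcases mem_insert.1 hu' with rfl | hu2
    · rfl
    · rw [qx_update_self, qx_update_of_ne _ (hne hu2)] at he
      refine absurd (mem_image.2 ⟨(s, u'), mem_product.2 ⟨hs, hu2⟩, ?_⟩) ha1
      rw [← he, div_mul_cancel₀ _ (sub_ne_zero.2 hsu)]
    · rw [qx_update_self, qx_update_of_ne _ (hne hu1)] at he
      refine absurd (mem_image.2 ⟨(s, u), mem_product.2 ⟨hs, hu1⟩, ?_⟩) ha1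
      rw [he, div_mul_cancel₀ _ (sub_ne_zero.2 hsu')]
    · rw [qx_update_of_ne _ (hne hu1), qx_update_of_ne _ (hne hu2)] at he
      exact h.inj s hs u hu1 u' hu2 hsu hsu' he
  · -- it suffices to treat the new slope in the third position
    have last : ∀ s₁ ∈ S', ∀ s₂ ∈ S', ∀ s₃ ∈ S', ∀ t₁ ∈ U, ∀ t₂ ∈ U,
        s₁ ≠ s₂ → s₁ ≠ t₁ → s₂ ≠ t₂ → s₃ ≠ t →
        det3 s₁ s₂ s₃ (qx v s₁ t₁) (qx v s₂ t₂) (a / (s₃ - t)) ≠ 0 := by
      intro s₁ hs₁ s₂ hs₂ s₃ hs₃ t₁ ht₁ t₂ ht₂ h12 e1 e2 e3 h0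
      have hx₁ : qx v s₁ t₁ ≠ 0 := div_ne_zero (h.ne_zero _ ht₁) (sub_ne_zero.2 e1)
      have hx₂ : qx v s₂ t₂ ≠ 0 := div_ne_zero (h.ne_zero _ ht₂) (sub_ne_zero.2 e2)
      set x₁ := qx v s₁ t₁
      set x₂ := qx v s₂ t₂
      set A := x₂ * (s₃ - s₂) + x₁ * (s₁ - s₃)
      have hC : x₁ * x₂ * (s₂ - s₁) ≠ 0 :=
        mul_ne_zero (mul_ne_zero hx₁ hx₂) (sub_ne_zero.2 h12.symm)
      have hlin : a / (s₃ - t) * A = -(x₁ * x₂ * (s₂ - s₁)) := by
        simp only [det3] at h0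
        simp only [A]
        linear_combination h0
      have hA : A ≠ 0 := fun e => by rw [e, mul_zero] at hlin; exact hC (neg_eq_zero.1 hlin.symm)
      refine ha2 (mem_image.2 ⟨(s₁, s₂, s₃, t₁, t₂), by simp [hs₁, hs₂, hs₃, ht₁, ht₂], ?_⟩)
      change -(x₁ * x₂ * (s₂ - s₁)) / A * (s₃ - t) = a
      rw [← hlin, mul_div_cancel_right₀ _ hA, div_mul_cancel₀ _ (sub_ne_zero.2 e3)]
    intro s₁ hs₁ s₂ hs₂ s₃ hs₃ t₁ ht₁ t₂ ht₂ t₃ ht₃ a12 a23 a31 b12 b23 b31 e1 e2 e3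
    rcases mem_insert.1 ht₃ with rfl | ht₃'
    · have m1 := (mem_insert.1 ht₁).resolve_left b31.symm
      have m2 := (mem_insert.1 ht₂).resolve_left b23
      rw [qx_update_self, qx_update_of_ne _ (hne m1), qx_update_of_ne _ (hne m2)]
      exact last s₁ hs₁ s₂ hs₂ s₃ hs₃ t₁ m1 t₂ m2 a12 e1 e2 e3
    rcases mem_insert.1 ht₂ with rfl | ht₂'
    · have m1 := (mem_insert.1 ht₁).resolve_left b12
      rw [qx_update_self, qx_update_of_ne _ (hne m1), qx_update_of_ne _ (hne ht₃'),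
        det3_rot, det3_rot]
      exact last s₃ hs₃ s₁ hs₁ s₂ hs₂ t₃ ht₃' t₁ m1 a31 e3 e1 e2
    rcases mem_insert.1 ht₁ with rfl | ht₁'
    · rw [qx_update_self, qx_update_of_ne _ (hne ht₂'), qx_update_of_ne _ (hne ht₃'), det3_rot]
      exact last s₂ hs₂ s₃ hs₃ s₁ hs₁ t₂ ht₂' t₃ ht₃' a23 e2 e3 e1
    rw [qx_update_of_ne _ (hne ht₁'), qx_update_of_ne _ (hne ht₂'),
      qx_update_of_ne _ (hne ht₃')]
    exact h.det s₁ hs₁ s₂ hs₂ s₃ hs₃ t₁ ht₁' t₂ ht₂' t₃ ht₃' a12 a23 a31 b12 b23 b31 e1 e2 e3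

/-- Offsets in general position avoiding prescribed values exist over a large field. -/
theorem exists_generic [Fintype F] (S' U : Finset F) (bad : F → Finset F) {M : ℕ}
    (hS : #S' ≤ M) (hU : #U ≤ M) (hb : ∀ t, #(bad t) ≤ M)
    (hM : 1 + M + M ^ 2 + M ^ 5 < Fintype.card F) :
    ∃ v, Generic S' U v ∧ ∀ t ∈ U, v t ∉ bad t := by
  induction U using Finset.induction_on with
  | empty => exact ⟨0, ⟨by simp, by simp, by simp⟩, by simp⟩
  | @insert t U ht ih =>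
    rw [card_insert_of_notMem ht] at hU
    obtain ⟨v, hv, hvb⟩ := ih (by omega)
    have h2 : #(injBad S' U v t) ≤ M ^ 2 := by
      refine card_image_le.trans ?_
      rw [card_product, sq]
      exact Nat.mul_le_mul hS (by omega)
    have h3 : #(detBad S' U v t) ≤ M ^ 5 := by
      refine card_image_le.trans ?_
      simp only [card_product]
      calc #S' * (#S' * (#S' * (#U * #U))) ≤ M * (M * (M * (M * M))) := by gcongr <;> omega
        _ = M ^ 5 := by ring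
    obtain ⟨a, -, ha⟩ := exists_mem_notMem_of_card_lt_card
      (s := ({0} : Finset F) ∪ bad t ∪ injBad S' U v t ∪ detBad S' U v t) (t := univ) (by
        rw [card_univ]
        refine lt_of_le_of_lt ?_ hM
        have := hb t
        refine (card_union_le _ _).trans ?_
        refine Nat.add_le_add ((card_union_le _ _).trans ?_) h3
        refine Nat.add_le_add ((card_union_le _ _).trans ?_) h2
        rw [card_singleton]
        omega)
    simp only [mem_union, mem_singleton, not_or] at ha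
    refine ⟨Function.update v t a, hv.insert_step ht ha.1.1.1 ha.1.2 ha.2, fun u hu => ?_⟩
    rcases mem_insert.1 hu with rfl | hu'
    · simpa using ha.1.1.2
    · rw [Function.update_of_ne (fun e : u = t => ht (e ▸ hu'))]
      exact hvb u hu'

end Vale.Agent.P045.Gad
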