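import Mathlib
import Vale.Agent.P045.Gadget.Offsets

/-!
# P045 gadget: centres, modified slopes and offsets in general position

Type `i` lives at the centre `(X i, Y i)`.  Its value in slope `u` is the line through the centre,
except for the slopes in `S i`, where it is the parallel line shifted by `v i u`.
-/

open Finset
open scoped Classical

namespace Vale.Agent.P045.Gad

/-- The three extra types. -/
def Ext {R : ℕ} (i : Fin (R + 5)) : Prop := 2 ≤ i.val ∧ i.val < 5

instance {R : ℕ} : DecidablePred (Ext (R := R)) := fun i =>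
  inferInstanceAs (Decidable (2 ≤ i.val ∧ i.val < 5))

/-- Centres, modified slopes and offsets. -/
structure Config (n R m : ℕ) [Fact n.Prime] where
  X : Fin (R + 5) → ZMod n
  Y : Fin (R + 5) → ZMod n
  S : Fin (R + 5) → Finset (ZMod n)
  v : Fin (R + 5) → ZMod n → ZMod n
  X_N : ∀ i, ¬Ext i → X i = 0
  X_E : ∀ i, Ext i → X i ≠ 0
  X_inj : ∀ i l, Ext i → Ext l → X i = X l → i = l
  Y_inj : Function.Injective Y
  five : ∀ i j l : Fin (R + 5), i.val < 5 → j.val < 5 → l.val < 5 → i ≠ j → j ≠ l → l ≠ i →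
    (Y j - Y i) * (X l - X i) ≠ (Y l - Y i) * (X j - X i)
  S_card : ∀ i, #(S i) = m
  S_ne : ∀ i, (0 : ZMod n) ∉ S i
  S_disj : ∀ i l, i ≠ l → Disjoint (S i) (S l)
  S_avoid : ∀ i, ∀ s ∈ S i, ∀ j l, j ≠ l → Y j - s * X j ≠ Y l - s * X l
  v_generic : ∀ i, Generic (insert 0 (S i)) (S i) (v i)
  v_centre : ∀ i, ∀ t ∈ S i, ∀ l, Y i - t * X i + v i t ≠ Y l - t * X l
  v_X : ∀ i, ∀ s ∈ insert 0 (S i), ∀ t ∈ S i, s ≠ t → X i + qx (v i) s t ≠ 0
  v_Y : ∀ i, ∀ s ∈ insert 0 (S i), ∀ t ∈ S i, s ≠ t → ∀ l, l ≠ i →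
    Y i + s * qx (v i) s t ≠ Y l
  v_A : ∀ i, ∀ s ∈ insert 0 (S i), ∀ t ∈ S i, s ≠ t → ∀ l, l ≠ i → ∀ u ∈ S l,
    (Y i + s * qx (v i) s t) - u * (X i + qx (v i) s t) ≠ Y l - u * X l
  v01 : ∀ i l : Fin (R + 5), i.val = 0 → l.val = 1 → ∀ s ∈ S i, ∀ t ∈ S l,
    Y i + v i s ≠ Y l + v l t

/-- First coordinates of the centres, as integers. -/
def natX {R : ℕ} (i : Fin (R + 5)) : ℕ := if Ext i then i.val - 1 else 0

/-- Second coordinates of the centres, as integers. -/
def natY {R : ℕ} (i : Fin (R + 5)) : ℕ :=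
  if i.val = 2 then 10 * (R + 5) else if i.val = 3 then 50 * (R + 5)
  else if i.val = 4 then 170 * (R + 5) else i.val

theorem natX_lt {R : ℕ} (i : Fin (R + 5)) : natX i < 4 := by
  unfold natX; split_ifs with h
  · have := h.2; omega
  · omega

theorem natY_le {R : ℕ} (i : Fin (R + 5)) : natY i ≤ 170 * (R + 5) := by
  have := i.isLt; unfold natY; split_ifs <;> omega

theorem natY_inj {R : ℕ} : Function.Injective (natY (R := R)) := by
  intro i l h
  have := i.isLt; have := l.isLt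
  apply Fin.ext
  unfold natY at h
  split_ifs at h <;> omega

variable {n : ℕ} [Fact n.Prime]

theorem natCast_injOn {a b : ℕ} (ha : a < n) (hb : b < n) (h : (a : ZMod n) = b) : a = b := by
  have := congrArg ZMod.val h
  rwa [ZMod.val_natCast_of_lt ha, ZMod.val_natCast_of_lt hb] at this

theorem intCast_ne_zero {z : ℤ} (hz : z ≠ 0) (hzn : z.natAbs < n) : (z : ZMod n) ≠ 0 := by
  rw [Ne, ZMod.intCast_zmod_eq_zero_iff_dvd]
  intro h
  have := Int.natAbs_dvd_natAbs.2 h
  rw [Int.natAbs_natCast] at this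
  exact absurd (Nat.le_of_dvd (Int.natAbs_pos.2 hz) this) (not_le.2 hzn)

/-- Table of the five first centres: abscissae. -/
def fiveX : ℕ → ℤ
  | 2 => 1
  | 3 => 2
  | 4 => 3
  | _ => 0

/-- Table of the five first centres: ordinates. -/
def fiveY (M : ℤ) : ℕ → ℤ
  | 2 => 10 * M
  | 3 => 50 * M
  | 4 => 170 * M
  | 1 => 1
  | _ => 0

theorem five_det {M : ℤ} (hM : 5 ≤ M) {a b c : ℕ} (ha : a < 5) (hb : b < 5) (hc : c < 5)
    (h1 : a ≠ b) (h2 : b ≠ c) (h3 : c ≠ a) :
    (fiveY M b - fiveY M a) * (fiveX c - fiveX a) - (fiveY M c - fiveY M a) * (fiveX b - fiveX a)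
        ≠ 0 ∧
      -1200 * M < (fiveY M b - fiveY M a) * (fiveX c - fiveX a) -
        (fiveY M c - fiveY M a) * (fiveX b - fiveX a) ∧
      (fiveY M b - fiveY M a) * (fiveX c - fiveX a) -
        (fiveY M c - fiveY M a) * (fiveX b - fiveX a) < 1200 * M := by
  interval_cases a <;> interval_cases b <;> (try omega) <;> interval_cases c <;> (try omega) <;>
    (simp only [fiveX, fiveY]; refine ⟨?_, ?_, ?_⟩ <;> omega)

theorem natXY_five {R : ℕ} (hn : 3000 * (R + 5) < n) (i j l : Fin (R + 5)) (hi : i.val < 5)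
    (hj : j.val < 5) (hl : l.val < 5) (h1 : i ≠ j) (h2 : j ≠ l) (h3 : l ≠ i) :
    ((natY j : ZMod n) - natY i) * ((natX l : ZMod n) - natX i) ≠
      ((natY l : ZMod n) - natY i) * ((natX j : ZMod n) - natX i) := by
  intro h
  have tab : ∀ k : Fin (R + 5), k.val < 5 →
      (natX k : ℤ) = fiveX k.val ∧ (natY k : ℤ) = fiveY ((R + 5 : ℕ) : ℤ) k.val := by
    rintro ⟨a, ha⟩ (hk : a < 5)
    interval_cases a <;> simp [natX, natY, Ext, fiveX, fiveY]
  obtain ⟨hne, hlo, hhi⟩ := five_det (M := ((R + 5 : ℕ) : ℤ)) (by omega) hi hj hl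
    (fun e => h1 (Fin.ext e)) (fun e => h2 (Fin.ext e)) (fun e => h3 (Fin.ext e))
  rw [← (tab i hi).1, ← (tab i hi).2, ← (tab j hj).1, ← (tab j hj).2, ← (tab l hl).1,
    ← (tab l hl).2] at hne hlo hhi
  refine intCast_ne_zero hne (n := n) (by omega) ?_
  push_cast
  linear_combination h

/-- Disjoint slope sets avoiding a forbidden set. -/
theorem exists_slopes {F : Type*} [Fintype F] (forb : Finset F) (R m : ℕ)
    (h : #(forb) + (R + 5) * m ≤ Fintype.card F) :
    ∃ S : Fin (R + 5) → Finset F, (∀ i, #(S i) = m) ∧ (∀ i, Disjoint (S i) forb) ∧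
      ∀ i l, i ≠ l → Disjoint (S i) (S l) := by
  obtain ⟨e⟩ := Function.Embedding.nonempty_of_card_le
    (α := Fin (R + 5) × Fin m) (β := ↥(univ \ forb)) (by
      rw [Fintype.card_prod, Fintype.card_fin, Fintype.card_fin, Fintype.card_coe,
        card_univ_sdiff]
      omega)
  refine ⟨fun i => univ.image fun j => (e (i, j)).1, fun i => ?_, fun i => ?_, fun i l hil => ?_⟩
  · rw [card_image_of_injective _ fun a b h => (Prod.ext_iff.1 (e.injective (Subtype.ext h))).2,
      card_univ, Fintype.card_fin]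
  · refine disjoint_left.2 fun x hx => ?_
    obtain ⟨j, -, rfl⟩ := mem_image.1 hx
    exact (mem_sdiff.1 (e (i, j)).2).2
  · refine disjoint_left.2 fun x hx hx' => ?_
    obtain ⟨j, -, rfl⟩ := mem_image.1 hx
    obtain ⟨j', -, hj⟩ := mem_image.1 hx'
    exact hil (Prod.ext_iff.1 (e.injective (Subtype.ext hj))).1.symm

/-- The forbidden offsets of type `i` at slope `t`. -/
noncomputable def offBad {R : ℕ} (X Y : Fin (R + 5) → ZMod n) (S : Fin (R + 5) → Finset (ZMod n))
    (i : Fin (R + 5)) (t : ZMod n) : Finset (ZMod n) :=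
  (univ.image fun l => (Y l - t * X l) - (Y i - t * X i)) ∪
  ((insert 0 (S i)).image fun s => -X i * (s - t)) ∪
  ((insert 0 (S i) ×ˢ univ).image fun p => (Y p.2 - Y i) / p.1 * (p.1 - t)) ∪
  ((insert 0 (S i) ×ˢ univ.sigma fun l => S l).image fun p =>
    ((Y p.2.1 - p.2.2 * X p.2.1) - (Y i - p.2.2 * X i)) / (p.1 - p.2.2) * (p.1 - t))

theorem card_offBad_le {R m : ℕ} (X Y : Fin (R + 5) → ZMod n)
    (S : Fin (R + 5) → Finset (ZMod n)) (hS : ∀ i, #(S i) = m) (i : Fin (R + 5)) (t : ZMod n) :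
    #(offBad X Y S i t) ≤ (R + 5) + (m + 1) + (m + 1) * (R + 5) + (m + 1) * ((R + 5) * m) := by
  have h0 : #(insert 0 (S i)) ≤ m + 1 := (card_insert_le _ _).trans (by rw [hS])
  refine (card_union_le _ _).trans (Nat.add_le_add ((card_union_le _ _).trans
    (Nat.add_le_add ((card_union_le _ _).trans (Nat.add_le_add ?_ ?_)) ?_)) ?_)
  · exact card_image_le.trans (by simp)
  · exact card_image_le.trans h0
  · refine card_image_le.trans ?_
    rw [card_product, card_univ, Fintype.card_fin]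
    exact Nat.mul_le_mul_right _ h0
  · refine card_image_le.trans ?_
    rw [card_product, card_sigma, sum_congr rfl fun l _ => hS l, sum_const, card_univ,
      Fintype.card_fin, smul_eq_mul]
    exact Nat.mul_le_mul_right _ h0

/-- The facts about one type that follow from avoiding `offBad`. -/
theorem off_good {R m : ℕ} {X Y : Fin (R + 5) → ZMod n} {S : Fin (R + 5) → Finset (ZMod n)}
    (hY : Function.Injective Y) (hS0 : ∀ i, (0 : ZMod n) ∉ S i)
    (hdisj : ∀ i l, i ≠ l → Disjoint (S i) (S l)) (_hS : ∀ i, #(S i) = m)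
    {i : Fin (R + 5)} {w : ZMod n → ZMod n} {t : ZMod n} (hb : w t ∉ offBad X Y S i t) :
    (∀ l, Y i - t * X i + w t ≠ Y l - t * X l) ∧
    (∀ s ∈ insert 0 (S i), s ≠ t → X i + qx w s t ≠ 0) ∧
    (∀ s ∈ insert 0 (S i), s ≠ t → ∀ l, l ≠ i → Y i + s * qx w s t ≠ Y l) ∧
    (∀ s ∈ insert 0 (S i), s ≠ t → ∀ l, l ≠ i → ∀ u ∈ S l,
      (Y i + s * qx w s t) - u * (X i + qx w s t) ≠ Y l - u * X l) := by
  simp only [offBad, mem_union, not_or] at hb
  obtain ⟨⟨⟨b1, b2⟩, b3⟩, b4⟩ := hb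
  have hw : ∀ {s}, s ≠ t → qx w s t * (s - t) = w t := fun hst =>
    div_mul_cancel₀ _ (sub_ne_zero.2 hst)
  refine ⟨fun l e => b1 (mem_image.2 ⟨l, mem_univ _, ?_⟩), fun s hs hst e => ?_,
    fun s hs hst l hl e => ?_, fun s hs hst l hl u hu e => ?_⟩
  · linear_combination -e
  · refine b2 (mem_image.2 ⟨s, hs, ?_⟩)
    rw [← hw hst, show qx w s t = -X i by linear_combination e]
  · rcases eq_or_ne s 0 with rfl | hs0
    · exact hl (hY (by linear_combination e)).symm
    refine b3 (mem_image.2 ⟨(s, l), mem_product.2 ⟨hs, mem_univ _⟩, ?_⟩)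
    rw [← hw hst, show qx w s t = (Y l - Y i) / s by
      rw [eq_div_iff hs0]; linear_combination e]
  · have hsu : s ≠ u := by
      rintro rfl
      rcases mem_insert.1 hs with rfl | hs
      · exact hS0 l hu
      · exact disjoint_left.1 (hdisj i l hl.symm) hs hu
    refine b4 (mem_image.2 ⟨(s, ⟨l, u⟩), mem_product.2 ⟨hs, mem_sigma.2 ⟨mem_univ _, hu⟩⟩, ?_⟩)
    rw [← hw hst, show qx w s t = ((Y l - u * X l) - (Y i - u * X i)) / (s - u) by
      rw [eq_div_iff (sub_ne_zero.2 hsu)]; linear_combination e]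

/-- Configurations exist for every large prime. -/
theorem exists_config (R m : ℕ) : ∃ n₀, ∀ n, ∀ _ : Fact n.Prime, n₀ ≤ n →
    Nonempty (Config n R m) := by
  set M := (R + 6) ^ 2 * (m + 2) ^ 2 + 1 with hM
  refine ⟨2 + M + M ^ 2 + M ^ 5 + 3000 * (R + 5) + (R + 5) * m, fun n _ hn => ?_⟩
  let X : Fin (R + 5) → ZMod n := fun i => (natX i : ℕ)
  let Y : Fin (R + 5) → ZMod n := fun i => (natY i : ℕ)
  have hXlt : ∀ i : Fin (R + 5), natX i < n := fun i => (natX_lt i).trans_le (by omega)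
  have hYlt : ∀ i : Fin (R + 5), natY i < n := fun i => (natY_le i).trans_lt (by omega)
  have hY : Function.Injective Y := fun i l h => natY_inj (natCast_injOn (hYlt i) (hYlt l) h)
  have hforb : #(insert 0 ((univ ×ˢ univ).image fun p => (Y p.1 - Y p.2) / (X p.1 - X p.2))) ≤
      (R + 5) * (R + 5) + 1 :=
    (card_insert_le _ _).trans (Nat.add_le_add_right (card_image_le.trans (by simp)) _)
  set forb := insert (0 : ZMod n) ((univ ×ˢ univ).image fun p => (Y p.1 - Y p.2) / (X p.1 - X p.2))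
  obtain ⟨S, hS, hSf, hSd⟩ := exists_slopes forb R m (by
    rw [ZMod.card]
    have : (R + 5) * (R + 5) + 1 ≤ M := by
      rw [hM]; nlinarith [Nat.zero_le ((R + 6) * (R + 6) * (m * m + 4 * m + 3))]
    omega)
  have hS0 : ∀ i, (0 : ZMod n) ∉ S i := fun i h =>
    disjoint_left.1 (hSf i) h (mem_insert_self _ _)
  have hbadM : ∀ i t, #(offBad X Y S i t) + m ≤ M := by
    intro i t
    have := card_offBad_le X Y S hS i t
    rw [hM]
    nlinarith
  have hMn : 1 + M + M ^ 2 + M ^ 5 < Fintype.card (ZMod n) := by rw [ZMod.card]; omega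
  have hins : ∀ i, #(insert 0 (S i)) ≤ M := fun i => by
    refine (card_insert_le _ _).trans ?_; rw [hS, hM]; nlinarith
  have hSM : ∀ i, #(S i) ≤ M := fun i => by rw [hS, hM]; nlinarith
  obtain ⟨w0, hw0, hw0b⟩ := exists_generic (insert 0 (S 0)) (S 0) (offBad X Y S 0) (hins 0) (hSM 0)
    (fun t => le_trans (Nat.le_add_right _ _) (hbadM 0 t)) hMn
  have hone : ∀ i : Fin (R + 5), ∃ w, Generic (insert 0 (S i)) (S i) w ∧ ∀ t ∈ S i,
      w t ∉ offBad X Y S i t ∪ (S 0).image fun s => Y 0 + w0 s - Y i := fun i =>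
    exists_generic _ _ (fun t => offBad X Y S i t ∪ (S 0).image fun s => Y 0 + w0 s - Y i)
      (hins i) (hSM i)
      (fun t => (card_union_le _ _).trans (le_trans
        (Nat.add_le_add_left (card_image_le.trans (hS 0).le) _) (hbadM i t))) hMn
  choose w hw hwb using hone
  let v : Fin (R + 5) → ZMod n → ZMod n := fun i => if i = 0 then w0 else w i
  have hv : ∀ i, Generic (insert 0 (S i)) (S i) (v i) ∧ ∀ t ∈ S i, v i t ∉ offBad X Y S i t := by
    intro i
    by_cases hi : i = 0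
    · subst hi; simp only [v, if_true]; exact ⟨hw0, hw0b⟩
    · simp only [v, if_neg hi]
      exact ⟨hw i, fun t ht e => hwb i t ht (mem_union_left _ e)⟩
  have good := fun i t (ht : t ∈ S i) =>
    off_good (m := m) hY hS0 hSd hS (i := i) (w := v i) ((hv i).2 t ht)
  have hXN : ∀ i, ¬Ext i → X i = 0 := fun i h => by simp [X, natX, h]
  refine ⟨⟨X, Y, S, v, hXN, fun i h e => ?_, fun i l hi hl e => ?_, hY, ?_, hS, hS0, hSd,
    fun i s hs j l hjl e => ?_, fun i => (hv i).1, fun i t ht => (good i t ht).1,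
    fun i s hs t ht hst => (good i t ht).2.1 s hs hst,
    fun i s hs t ht hst => (good i t ht).2.2.1 s hs hst,
    fun i s hs t ht hst => (good i t ht).2.2.2 s hs hst, fun i l hi hl s hs t ht e => ?_⟩⟩
  · have := natCast_injOn (n := n) (a := natX i) (b := 0) (hXlt i) (by omega) (by simpa [X] using e)
    simp only [natX, h, if_true] at this
    have := h.1; omega
  · have := natCast_injOn (hXlt i) (hXlt l) e
    simp only [natX, hi, hl, if_true] at this
    have := hi.1; have := hl.1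
    exact Fin.ext (by omega)
  · exact fun i j l => natXY_five (by omega) i j l
  · have hX : X j ≠ X l := fun e' => hjl (hY (by rw [e'] at e; linear_combination e))
    refine disjoint_left.1 (hSf i) hs (mem_insert_of_mem (mem_image.2 ⟨(j, l), by simp, ?_⟩))
    rw [div_eq_iff (sub_ne_zero.2 hX)]
    linear_combination e
  · obtain rfl : i = 0 := Fin.ext hi
    have hl0 : l ≠ 0 := fun e' => by rw [e'] at hl; simp at hl
    refine hwb l t ht (mem_union_right _ (mem_image.2 ⟨s, hs, ?_⟩))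
    simp only [v, if_true, if_neg hl0] at e
    linear_combination e

end Vale.Agent.P045.Gad
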