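import Mathlib
import Vale.Agent.P045.GadgetDef
import Vale.Agent.P045.Plane
import Vale.Agent.P045.Gadget.Config

/-!
# P045 gadget: the edges, and covers as sets of lines of `AG(2, n)`

Cells are the points agreeing with every type; their slot is the row, their special value the
column and their value in slope `u` the intercept of the line of slope `u`.
-/

open Finset
open scoped Classical

namespace Vale.Agent.P045.Gad

variable {n R m : ℕ} [Fact n.Prime] (cfg : Config n R m)

/-- The nonzero slope of a part. -/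
def slope (j : Fin (n - 1)) : ZMod n := ((j.val + 1 : ℕ) : ZMod n)

theorem slope_ne_zero (j : Fin (n - 1)) : slope j ≠ 0 := by
  intro h
  have := congrArg ZMod.val h
  rw [slope, ZMod.val_natCast_of_lt (by have := j.isLt; omega), ZMod.val_zero] at this
  omega

namespace Config

/-- The intercept of type `i` in slope `u`. -/
noncomputable def beta (i : Fin (R + 5)) (u : ZMod n) : ZMod n :=
  if u ∈ cfg.S i then cfg.Y i - u * cfg.X i + cfg.v i u else cfg.Y i - u * cfg.X i

/-- The vector of type `i`. -/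
noncomputable def tvec (i : Fin (R + 5)) (j : Fin (n - 1)) : ℕ := (cfg.beta i (slope j)).val

/-- The vector of a cell. -/
def cvec (p : ZMod n × ZMod n) (j : Fin (n - 1)) : ℕ := (p.2 - slope j * p.1).val

/-- The type agrees with the point in some part. -/
def Met (i : Fin (R + 5)) (p : ZMod n × ZMod n) : Prop :=
  ∃ u : ZMod n, u ≠ 0 ∧ p.2 - u * p.1 = cfg.beta i u

/-- The point may be a cell. -/
def Compat (p : ZMod n × ZMod n) : Prop := ∀ i, cfg.Met i p ∨ (Ext i ∧ p.1 = cfg.X i)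

/-- The cell at a point. -/
def cellEdge (p : ZMod n × ZMod n) : GEdge (n - 1) := ⟨p.2.val, p.1.val, cvec p⟩

/-- The copies of the extra types. -/
noncomputable def extraEdge (ic : Fin (R + 5) × Fin 4) : GEdge (n - 1) :=
  ⟨n + (4 * ic.1.val + ic.2.val), (cfg.X ic.1).val, cfg.tvec ic.1⟩

/-- The edges lacking the pencil line. -/
noncomputable def gEdges : Finset (GEdge (n - 1)) :=
  (univ.filter cfg.Compat).image cellEdge ∪ (univ.filter fun ic => Ext ic.1).image cfg.extraEdge

/-- The copies of the second type. -/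
noncomputable def nEdges : Finset (NEdge (n - 1)) :=
  univ.image fun c : Fin 4 => ⟨n + 4 * (R + 5) + c.val, cfg.tvec 1⟩

variable {cfg}

theorem exists_slope {u : ZMod n} (hu : u ≠ 0) : ∃ j : Fin (n - 1), slope j = u := by
  have h1 : u.val ≠ 0 := fun e => hu ((ZMod.val_eq_zero u).1 e)
  have h2 := u.val_lt
  refine ⟨⟨u.val - 1, by omega⟩, ?_⟩
  rw [slope]
  simp only
  rw [show u.val - 1 + 1 = u.val by omega, ZMod.natCast_zmod_val]

theorem Met.exists_eq {i : Fin (R + 5)} {p : ZMod n × ZMod n} (h : cfg.Met i p) :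
    ∃ j, cvec p j = cfg.tvec i j := by
  obtain ⟨u, hu, he⟩ := h
  obtain ⟨j, rfl⟩ := exists_slope hu
  exact ⟨j, congrArg ZMod.val he⟩

theorem beta_of_notMem {i : Fin (R + 5)} {u : ZMod n} (h : u ∉ cfg.S i) :
    cfg.beta i u = cfg.Y i - u * cfg.X i := if_neg h

theorem beta_of_mem {i : Fin (R + 5)} {u : ZMod n} (h : u ∈ cfg.S i) :
    cfg.beta i u = cfg.Y i - u * cfg.X i + cfg.v i u := if_pos h

/-- An extra type agrees with every other type. -/
theorem agree_types {i l : Fin (R + 5)} (hi : Ext i) (hil : i ≠ l) :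
    ∃ u : ZMod n, u ≠ 0 ∧ cfg.beta i u = cfg.beta l u := by
  have hX : cfg.X l - cfg.X i ≠ 0 := by
    refine sub_ne_zero.2 fun e => ?_
    by_cases hl : Ext l
    · exact hil (cfg.X_inj i l hi hl e.symm)
    · exact cfg.X_E i hi (e ▸ cfg.X_N l hl)
  have hu : (cfg.Y l - cfg.Y i) / (cfg.X l - cfg.X i) ≠ 0 :=
    div_ne_zero (sub_ne_zero.2 fun e => hil (cfg.Y_inj e).symm) hX
  refine ⟨_, hu, ?_⟩
  have he : cfg.Y i - (cfg.Y l - cfg.Y i) / (cfg.X l - cfg.X i) * cfg.X i =
      cfg.Y l - (cfg.Y l - cfg.Y i) / (cfg.X l - cfg.X i) * cfg.X l := by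
    linear_combination div_mul_cancel₀ (cfg.Y l - cfg.Y i) hX
  rw [beta_of_notMem fun h => cfg.S_avoid i _ h i l hil he,
    beta_of_notMem fun h => cfg.S_avoid l _ h i l hil he, he]

/-- Two types on the first column share no value. -/
theorem beta_ne {i l : Fin (R + 5)} (hi : ¬Ext i) (hl : ¬Ext l) (hil : i ≠ l)
    (u : ZMod n) :
    cfg.beta i u ≠ cfg.beta l u := by
  intro e
  by_cases h1 : u ∈ cfg.S i
  · rw [beta_of_mem h1, beta_of_notMem fun h2 => disjoint_left.1 (cfg.S_disj i l hil) h1 h2] at e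
    exact cfg.v_centre i u h1 l e
  by_cases h2 : u ∈ cfg.S l
  · rw [beta_of_notMem h1, beta_of_mem h2] at e
    exact cfg.v_centre l u h2 i e.symm
  rw [beta_of_notMem h1, beta_of_notMem h2, cfg.X_N i hi, cfg.X_N l hl] at e
  exact hil (cfg.Y_inj (by linear_combination e))

theorem tvec_ne {i l : Fin (R + 5)} (hi : ¬Ext i) (hl : ¬Ext l) (hil : i ≠ l) (j : Fin (n - 1)) :
    cfg.tvec i j ≠ cfg.tvec l j :=
  fun e => beta_ne hi hl hil (u := slope j) (ZMod.val_injective n e)

/-- A point off the three kinds of exceptional lines of a type agrees with it. -/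
theorem met_or_col {l : Fin (R + 5)} {p : ZMod n × ZMod n} (h0 : p.1 ≠ 0) (hY : p.2 ≠ cfg.Y l)
    (hA : ∀ u ∈ cfg.S l, p.2 - u * p.1 ≠ cfg.Y l - u * cfg.X l) :
    cfg.Met l p ∨ (Ext l ∧ p.1 = cfg.X l) := by
  by_cases hx : p.1 = cfg.X l
  · refine Or.inr ⟨?_, hx⟩
    by_contra hl
    exact h0 (hx.trans (cfg.X_N l hl))
  have hd : p.1 - cfg.X l ≠ 0 := sub_ne_zero.2 hx
  have he : p.2 - (p.2 - cfg.Y l) / (p.1 - cfg.X l) * p.1 =
      cfg.Y l - (p.2 - cfg.Y l) / (p.1 - cfg.X l) * cfg.X l := by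
    linear_combination -div_mul_cancel₀ (p.2 - cfg.Y l) hd
  refine Or.inl ⟨_, div_ne_zero (sub_ne_zero.2 hY) hd, ?_⟩
  rw [he, beta_of_notMem fun h => hA _ h he]

variable (cfg) in
/-- The crossing point of the centre line of slope `s` and the shifted line of slope `t`. -/
def cross (i : Fin (R + 5)) (s t : ZMod n) : ZMod n × ZMod n :=
  (cfg.X i + qx (cfg.v i) s t, cfg.Y i + s * qx (cfg.v i) s t)

theorem compat_cross {i : Fin (R + 5)} {s t : ZMod n} (hs : s ∈ insert 0 (cfg.S i))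
    (ht : t ∈ cfg.S i) (hst : s ≠ t) : cfg.Compat (cfg.cross i s t) := by
  intro l
  by_cases hl : l = i
  · subst hl
    refine Or.inl ⟨t, fun e => cfg.S_ne l (e ▸ ht), ?_⟩
    rw [beta_of_mem ht]
    have hc : qx (cfg.v l) s t * (s - t) = cfg.v l t := div_mul_cancel₀ _ (sub_ne_zero.2 hst)
    simp only [cross]
    linear_combination hc
  · exact met_or_col (cfg.v_X i s hs t ht hst) (cfg.v_Y i s hs t ht hst l hl)
      (cfg.v_A i s hs t ht hst l hl)

variable (cfg) in
/-- The exceptional lines: the common column, the centre rows and the modified centre lines. -/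
noncomputable def dLines : Finset (PLine n) :=
  insert (none, 0) ((univ.image fun i => (some 0, cfg.Y i)) ∪
    (univ.sigma cfg.S).image fun p => (some p.2, cfg.Y p.1 - p.2 * cfg.X p.1))

theorem card_dLines : #(cfg.dLines) ≤ 1 + ((R + 5) + (R + 5) * m) := by
  refine (card_insert_le _ _).trans ?_
  rw [Nat.add_comm]
  refine Nat.add_le_add_left ((card_union_le _ _).trans (Nat.add_le_add ?_ ?_)) _
  · exact card_image_le.trans (by simp)
  · refine card_image_le.trans ?_
    rw [card_sigma, sum_congr rfl fun l _ => cfg.S_card l, sum_const, card_univ, Fintype.card_fin,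
      smul_eq_mul]

theorem mem_dLines {l : PLine n} : l ∈ cfg.dLines ↔
    l = (none, 0) ∨ (∃ i, l = (some 0, cfg.Y i)) ∨
      ∃ i, ∃ u ∈ cfg.S i, l = (some u, cfg.Y i - u * cfg.X i) := by
  simp only [dLines, mem_insert, mem_union, mem_image, mem_sigma, mem_univ, true_and,
    Sigma.exists, eq_comm (a := l)]

theorem compat_of_good {p : ZMod n × ZMod n} (hp : p ∉ cfg.dLines.biUnion linePts) :
    cfg.Compat p := by
  intro l
  have hno : ∀ L ∈ cfg.dLines, p ∉ linePts L := fun L hL h => hp (mem_biUnion.2 ⟨L, hL, h⟩)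
  refine met_or_col (fun e => ?_) (fun e => ?_) fun u hu e => ?_
  · exact hno _ (mem_dLines.2 (Or.inl rfl)) (mem_linePts_none.2 e)
  · exact hno _ (mem_dLines.2 (Or.inr (Or.inl ⟨l, rfl⟩))) (mem_linePts_some.2 (by rw [e]; ring))
  · exact hno _ (mem_dLines.2 (Or.inr (Or.inr ⟨l, u, hu, rfl⟩)))
      (mem_linePts_some.2 (by linear_combination e))

/-- The value lines and special lines of a cover. -/
noncomputable def nhLines (P : Finset (Fin (n - 1) × ℕ)) (Cc : Finset ℕ) : Finset (PLine n) :=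
  P.image (fun jv : Fin (n - 1) × ℕ => (some (slope jv.1), (jv.2 : ZMod n))) ∪
    Cc.image fun c : ℕ => ((none, (c : ZMod n)) : PLine n)

/-- The rows killed by slots. -/
noncomputable def hLines (T : Finset ℕ) : Finset (PLine n) :=
  (T.filter (· < n)).image fun c : ℕ => ((some 0, (c : ZMod n)) : PLine n)

theorem card_nhLines (P : Finset (Fin (n - 1) × ℕ)) (Cc : Finset ℕ) :
    #(nhLines (n := n) P Cc) ≤ #P + #Cc :=
  (card_union_le _ _).trans (Nat.add_le_add card_image_le card_image_le)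

theorem card_hLines (T : Finset ℕ) : #(hLines (n := n) T) ≤ #T :=
  card_image_le.trans (card_filter_le _ _)

theorem nhLines_slope {P : Finset (Fin (n - 1) × ℕ)} {Cc : Finset ℕ} {l : PLine n}
    (h : l ∈ nhLines P Cc) : l.1 ≠ some 0 := by
  rcases mem_union.1 h with h | h <;> obtain ⟨a, -, rfl⟩ := mem_image.1 h
  · simpa using slope_ne_zero a.1
  · simp

theorem hLines_slope {T : Finset ℕ} {l : PLine n} (h : l ∈ hLines T) : l.1 = some 0 := by
  obtain ⟨a, -, rfl⟩ := mem_image.1 h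
  rfl

variable (cfg) in
/-- A set of values, special values and slots covers the edges lacking the pencil line. -/
def CoversG (T : Finset ℕ) (P : Finset (Fin (n - 1) × ℕ)) (Cc : Finset ℕ) : Prop :=
  ∀ e ∈ cfg.gEdges, e.slot ∈ T ∨ e.col ∈ Cc ∨ ∃ j, (j, e.vec j) ∈ P

theorem cell_covered {T : Finset ℕ} {P : Finset (Fin (n - 1) × ℕ)} {Cc : Finset ℕ}
    (h : cfg.CoversG T P Cc) {p : ZMod n × ZMod n} (hp : cfg.Compat p) :
    ∃ l ∈ nhLines P Cc ∪ hLines T, p ∈ linePts l := by
  rcases h _ (mem_union_left _ (mem_image.2 ⟨p, mem_filter.2 ⟨mem_univ _, hp⟩, rfl⟩)) with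
    h1 | h1 | ⟨j, h1⟩
  · refine ⟨(some 0, p.2), mem_union_right _ (mem_image.2 ⟨p.2.val, ?_, ?_⟩),
      mem_linePts_some.2 (by ring)⟩
    · exact mem_filter.2 ⟨h1, p.2.val_lt⟩
    · rw [ZMod.natCast_zmod_val]
  · refine ⟨(none, p.1), mem_union_left _ (mem_union_right _ (mem_image.2 ⟨_, h1, ?_⟩)),
      mem_linePts_none.2 rfl⟩
    simp [cellEdge]
  · refine ⟨(some (slope j), p.2 - slope j * p.1),
      mem_union_left _ (mem_union_left _ (mem_image.2 ⟨_, h1, ?_⟩)), mem_linePts_some.2 (by ring)⟩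
    simp [cellEdge, cvec]

/-- A value covering a type gives the line of that type. -/
theorem type_line {P : Finset (Fin (n - 1) × ℕ)} {Cc : Finset ℕ} {i : Fin (R + 5)}
    {j : Fin (n - 1)} (h : (j, cfg.tvec i j) ∈ P) :
    (some (slope j), cfg.beta i (slope j)) ∈ nhLines P Cc :=
  mem_union_left _ (mem_image.2 ⟨_, h, by simp [tvec]⟩)

theorem meets_cell {e : GEdge (n - 1)} (he : e ∈ cfg.gEdges) (i : Fin (R + 5)) (hi : ¬Ext i) :
    ∃ j, e.vec j = cfg.tvec i j := by
  rcases mem_union.1 he with he | he <;> obtain ⟨a, ha, rfl⟩ := mem_image.1 he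
  · exact (((mem_filter.1 ha).2 i).resolve_right fun h => hi h.1).exists_eq
  · have hne : a.1 ≠ i := fun e => hi (e ▸ (mem_filter.1 ha).2)
    obtain ⟨u, hu, e⟩ := agree_types (cfg := cfg) (mem_filter.1 ha).2 hne
    obtain ⟨j, rfl⟩ := exists_slope hu
    exact ⟨j, congrArg ZMod.val e⟩

theorem gEdges_meet {e f : GEdge (n - 1)} (he : e ∈ cfg.gEdges) (hf : f ∈ cfg.gEdges)
    (hs : e.slot ≠ f.slot) (hc : e.col ≠ f.col) : ∃ j, e.vec j = f.vec j := by
  have mixed : ∀ (a : ZMod n × ZMod n) (b : Fin (R + 5) × Fin 4), cfg.Compat a → Ext b.1 →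
      (cellEdge a).col ≠ (cfg.extraEdge b).col →
      ∃ j, (cellEdge a).vec j = (cfg.extraEdge b).vec j := fun a b ha _ hc =>
    ((ha b.1).resolve_right fun h => hc (congrArg ZMod.val h.2)).exists_eq
  rcases mem_union.1 he with he | he <;> rcases mem_union.1 hf with hf | hf <;>
    obtain ⟨a, ha, rfl⟩ := mem_image.1 he <;> obtain ⟨b, hb, rfl⟩ := mem_image.1 hf
  · have hx : b.1 - a.1 ≠ 0 := sub_ne_zero.2 fun e => hc (congrArg ZMod.val e.symm)
    have hy : b.2 - a.2 ≠ 0 := sub_ne_zero.2 fun e => hs (congrArg ZMod.val e.symm)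
    obtain ⟨j, hj⟩ := exists_slope (div_ne_zero hy hx)
    refine ⟨j, congrArg ZMod.val ?_⟩
    rw [hj]
    linear_combination div_mul_cancel₀ (b.2 - a.2) hx
  · exact mixed a b (mem_filter.1 ha).2 (mem_filter.1 hb).2 hc
  · exact (mixed b a (mem_filter.1 hb).2 (mem_filter.1 ha).2 hc.symm).imp fun j h => h.symm
  · obtain ⟨u, hu, e⟩ := agree_types (cfg := cfg) (mem_filter.1 ha).2 (l := b.1)
      fun e => hc (by simp [extraEdge, e])
    obtain ⟨j, rfl⟩ := exists_slope hu
    exact ⟨j, congrArg ZMod.val e⟩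

end Config

end Vale.Agent.P045.Gad
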