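import Mathlib
import Vale.Agent.P045.Gadget.Cells

/-!
# P045 gadget: a small cover contains the ordinary lines of a pencil or of a class
-/

open Finset
open scoped Classical

namespace Vale.Agent.P045.Gad

variable {n R m : ℕ} [Fact n.Prime]

/-- Bound on the exceptional lines, plus room for the budget. -/
def dBound (R m : ℕ) : ℕ := 3 + (R + 5) * (m + 1)

/-- `n` is large enough for the near-pencil lemma. -/
def Large (n R m : ℕ) : Prop :=
  200 * (2 * dBound R m + 1) * (2 * dBound R m + 1) + 20 * dBound R m + 6 ≤ n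

/-- If a line is missing from a set of lines, the covered points on it are few. -/
theorem omitted_le {Ls F : Finset (PLine n)} {l : PLine n} {Z o : Finset (ZMod n × ZMod n)}
    (hl : l ∉ Ls) (hF : F ⊆ Ls) (hZl : Z ⊆ linePts l)
    (hZ : ∀ z ∈ Z, ∃ a ∈ Ls, z ∈ linePts a) (ho : ∀ a ∈ F, linePts l ∩ linePts a ⊆ o) :
    #Z + #F ≤ #o + #Ls := by
  have hsub : Z ⊆ o ∪ (Ls \ F).biUnion fun a => linePts l ∩ linePts a := by
    intro z hz
    obtain ⟨a, ha, hza⟩ := hZ z hz
    by_cases haF : a ∈ F
    · exact mem_union_left _ (ho a haF (mem_inter.2 ⟨hZl hz, hza⟩))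
    · exact mem_union_right _ (mem_biUnion.2 ⟨a, mem_sdiff.2 ⟨ha, haF⟩,
        mem_inter.2 ⟨hZl hz, hza⟩⟩)
  have h1 := (card_le_card hsub).trans (card_union_le _ _)
  have h2 : #((Ls \ F).biUnion fun a => linePts l ∩ linePts a) ≤ #(Ls \ F) :=
    card_biUnion_le.trans ((sum_le_sum fun a ha =>
      linePts_meet_le l a fun e : l = a => hl (e ▸ (mem_sdiff.1 ha).1)).trans_eq
      (card_eq_sum_ones _).symm)
  have h3 := card_sdiff_add_card_eq_card hF
  omega

namespace Config

variable {cfg : Config n R m}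

/-- A small cover contains every ordinary line of some pencil or some class. -/
theorem forced {T : Finset ℕ} {P : Finset (Fin (n - 1) × ℕ)} {Cc : Finset ℕ}
    (hn : Large n R m) (hG : cfg.CoversG T P Cc) (hsize : #T + #P + #Cc ≤ n + 2) :
    (∃ o, ∀ l, o ∈ linePts l → l ∉ cfg.dLines → l ∈ nhLines P Cc ∪ hLines T) ∨
      ∃ c, ∀ l : PLine n, l.1 = c → l ∉ cfg.dLines → l ∈ nhLines P Cc ∪ hLines T := by
  set S := nhLines (n := n) P Cc ∪ hLines T
  set B := cfg.dLines.biUnion linePts
  set C := dBound R m with hC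
  have hD : #(cfg.dLines) + 2 ≤ C := by
    have := card_dLines (cfg := cfg)
    rw [hC, dBound, Nat.mul_succ]
    omega
  have hB : #B ≤ C * n :=
    card_biUnion_le.trans (by
      rw [sum_congr rfl fun l _ => card_linePts l, sum_const, smul_eq_mul]
      exact Nat.mul_le_mul_right _ (by omega))
  have hS : #S ≤ n + C := by
    have := card_nhLines (n := n) P Cc
    have := card_hLines (n := n) T
    refine (card_union_le _ _).trans ?_
    omega
  have hX : univ \ B ⊆ S.biUnion linePts := fun p hp => by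
    obtain ⟨l, hl, hpl⟩ := cell_covered hG (compat_of_good (mem_sdiff.1 hp).2)
    exact mem_biUnion.2 ⟨l, hl, hpl⟩
  unfold Large at hn
  rw [← hC] at hn
  obtain ⟨hexc, hn2⟩ := cover_excess (C := C) (M := 1) (t := 1) hS hB
    (by rw [sdiff_eq_empty_iff_subset.2 hX]; simp) (by have := (Fact.out : n.Prime).pos; omega)
    (by omega)
  have rich : ∀ l, l ∉ cfg.dLines → 4 * (C + C + 1) + 2 ≤ #(linePts l ∩ (univ \ B)) := by
    intro l hl
    have h1 : linePts l ∩ (univ \ B) = linePts l \ B := by ext x; simp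
    rw [h1]
    have h2 := card_inter_add_card_sdiff (linePts l) B
    rw [card_linePts] at h2
    have h3 : #(linePts l ∩ B) ≤ #(cfg.dLines) := by
      rw [inter_biUnion]
      exact card_biUnion_le.trans ((sum_le_sum fun a ha =>
        linePts_meet_le l a fun e : l = a => hl (e ▸ ha)).trans_eq (card_eq_sum_ones _).symm)
    omega
  rcases rich_lines_mem hX hexc (by omega) hn2
    (le_trans (le_of_eq (by ring)) (le_trans (Nat.le_add_right _ (20 * C + 6)) (le_trans
      (le_of_eq (Nat.add_assoc _ _ _).symm) hn))) with ⟨o, ho⟩ | ⟨c, hc⟩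
  · exact Or.inl ⟨o, fun l h1 h2 => ho l h1 (rich l h2)⟩
  · exact Or.inr ⟨c, fun l h1 h2 => hc l h1 (rich l h2)⟩

variable (cfg) in
/-- The centre line of slope `s` of type `i`. -/
def centreLine (i : Fin (R + 5)) (s : ZMod n) : PLine n := (some s, cfg.Y i - s * cfg.X i)

variable (cfg) in
/-- The shifted line of slope `t` of type `i`. -/
def shiftLine (i : Fin (R + 5)) (t : ZMod n) : PLine n :=
  (some t, cfg.Y i - t * cfg.X i + cfg.v i t)

theorem cross_mem_centre (i : Fin (R + 5)) (s t : ZMod n) :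
    cfg.cross i s t ∈ linePts (cfg.centreLine i s) :=
  mem_linePts_some.2 (by simp only [cross]; ring)

theorem cross_mem_shift (i : Fin (R + 5)) {s t : ZMod n} (hst : s ≠ t) :
    cfg.cross i s t ∈ linePts (cfg.shiftLine i t) := by
  refine mem_linePts_some.2 ?_
  have hc : qx (cfg.v i) s t * (s - t) = cfg.v i t := div_mul_cancel₀ _ (sub_ne_zero.2 hst)
  simp only [cross]
  linear_combination hc

theorem cross_inj_right {i : Fin (R + 5)} {s : ZMod n} (hs : s ∈ insert 0 (cfg.S i)) :
    Set.InjOn (cfg.cross i s) ↑((cfg.S i).erase s) := by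
  intro t ht t' ht' e
  rw [mem_coe, mem_erase] at ht ht'
  exact (cfg.v_generic i).inj s hs t ht.2 t' ht'.2 ht.1.symm ht'.1.symm
    (add_left_cancel (congrArg Prod.fst e))

/-- An omitted centre line costs about `m` lines outside `F`. -/
theorem omitted_centre {T : Finset ℕ} {P : Finset (Fin (n - 1) × ℕ)} {Cc : Finset ℕ}
    (hG : cfg.CoversG T P Cc) {i : Fin (R + 5)} {s : ZMod n} (hs : s ∈ insert 0 (cfg.S i))
    (hl : cfg.centreLine i s ∉ nhLines P Cc ∪ hLines T) {F : Finset (PLine n)}
    (hF : F ⊆ nhLines P Cc ∪ hLines T) {o : Finset (ZMod n × ZMod n)}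
    (ho : ∀ a ∈ F, linePts (cfg.centreLine i s) ∩ linePts a ⊆ o) :
    #((cfg.S i).erase s) + #F ≤ #o + #(nhLines (n := n) P Cc ∪ hLines T) := by
  rw [← card_image_of_injOn (cross_inj_right hs)]
  refine omitted_le hl hF (fun z hz => ?_) (fun z hz => ?_) ho
  · obtain ⟨t, -, rfl⟩ := mem_image.1 hz
    exact cross_mem_centre i s t
  · obtain ⟨t, ht, rfl⟩ := mem_image.1 hz
    exact cell_covered hG (compat_cross hs (mem_erase.1 ht).2 (mem_erase.1 ht).1.symm)

end Config

end Vale.Agent.P045.Gad
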