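import Mathlib
import Vale.Agent.P045.Gadget.Forced

/-!
# P045 gadget: no cheap cover near a class of nonzero slope or near a pencil off the centres
-/

open Finset
open scoped Classical

namespace Vale.Agent.P045.Gad

variable {n R m : ℕ} [Fact n.Prime]

namespace Config

/-- A cover that would contradict `keep` or `drop`. -/
structure Cheap (cfg : Config n R m) (T : Finset ℕ) (P : Finset (Fin (n - 1) × ℕ))
    (Cc : Finset ℕ) : Prop where
  covers : cfg.CoversG T P Cc
  values : #P + #Cc ≤ n - 1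
  total : #T + #P + #Cc ≤ n + 2
  kind : (#P + #Cc ≤ n - 2 ∧ #T + #P + #Cc ≤ n + 1) ∨
    ((∀ e ∈ cfg.nEdges, e.slot ∈ T ∨ ∃ j, (j, e.vec j) ∈ P) ∧ ∃ j, (j, cfg.tvec 0 j) ∈ P)

variable {cfg : Config n R m} {T : Finset ℕ} {P : Finset (Fin (n - 1) × ℕ)} {Cc : Finset ℕ}

theorem card_erase_S (i : Fin (R + 5)) (s : ZMod n) : m ≤ #((cfg.S i).erase s) + 1 := by
  have := pred_card_le_card_erase (s := cfg.S i) (a := s)
  rw [cfg.S_card] at this
  omega

theorem Cheap.card_lines (h : Cheap cfg T P Cc) :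
    #(nhLines (n := n) P Cc ∪ hLines T) ≤ n + 2 := by
  have := h.total
  have := card_nhLines (n := n) P Cc
  have := card_hLines (n := n) T
  refine (card_union_le _ _).trans ?_
  omega

/-- The lines of nonzero or infinite slope in a cheap cover are at most `n - 1`. -/
theorem Cheap.card_nh (h : Cheap cfg T P Cc) : #(nhLines (n := n) P Cc) ≤ n - 1 :=
  (card_nhLines P Cc).trans h.values

theorem mem_nh_of_slope {l : PLine n} (hl : l ∈ nhLines P Cc ∪ hLines T) (h0 : l.1 ≠ some 0) :
    l ∈ nhLines P Cc :=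
  (mem_union.1 hl).resolve_right fun h => h0 (hLines_slope h)

/-- A class of nonzero slope. -/
theorem Cheap.no_class (h : Cheap cfg T P Cc) (hm : 5 ≤ m) {u : ZMod n} (hu : u ≠ 0)
    (hf : ∀ l : PLine n, l.1 = some u → l ∉ cfg.dLines → l ∈ nhLines P Cc ∪ hLines T) : False := by
  have hu0 : (some u : Option (ZMod n)) ≠ some 0 := by simpa using hu
  set K := (univ : Finset (ZMod n)).image fun b => ((some u, b) : PLine n)
  have hK : #K = n := by
    rw [card_image_of_injective _ fun a b e => (Prod.ext_iff.1 e).2, card_univ, ZMod.card]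
  have hKs : ∀ l ∈ K, l.1 = some u := fun l hl => by
    obtain ⟨b, -, rfl⟩ := mem_image.1 hl; rfl
  have hbad : ∀ l ∈ K, l ∈ cfg.dLines → ∃ i, u ∈ cfg.S i ∧ l = cfg.centreLine i u := by
    intro l hl hlD
    have hs := hKs l hl
    rcases mem_dLines.1 hlD with rfl | ⟨i, rfl⟩ | ⟨i, s, hsS, rfl⟩
    · simp at hs
    · exact absurd (Option.some.inj hs).symm hu
    · obtain rfl : s = u := Option.some.inj hs
      exact ⟨i, hsS, rfl⟩
  have hF : K \ cfg.dLines ⊆ nhLines P Cc := fun l hl => by
    obtain ⟨h1, h2⟩ := mem_sdiff.1 hl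
    exact mem_nh_of_slope (hf l (hKs l h1) h2) (by rw [hKs l h1]; exact hu0)
  have hn : 0 < n := (Fact.out : n.Prime).pos
  have hnh := h.card_nh
  by_cases hK0 : K ⊆ nhLines P Cc
  · have := card_le_card hK0; omega
  obtain ⟨l₀, hl₀, hl₀'⟩ := not_subset.1 hK0
  have hD₀ : l₀ ∈ cfg.dLines := by
    by_contra hc; exact hl₀' (hF (mem_sdiff.2 ⟨hl₀, hc⟩))
  obtain ⟨i, hi, rfl⟩ := hbad l₀ hl₀ hD₀
  have hdiff : K.erase (cfg.centreLine i u) ⊆ K \ cfg.dLines := fun l hl => by
    obtain ⟨hne, hlK⟩ := mem_erase.1 hl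
    refine mem_sdiff.2 ⟨hlK, fun hlD => hne ?_⟩
    obtain ⟨i', hi', rfl⟩ := hbad l hlK hlD
    obtain rfl : i' = i := by
      by_contra hne'; exact disjoint_left.1 (cfg.S_disj i' i hne') hi' hi
    rfl
  have h2 := omitted_centre h.covers (i := i) (s := u) (mem_insert_of_mem hi)
    (fun hl => hl₀' (mem_nh_of_slope hl (by rw [hKs _ hl₀]; exact hu0)))
    ((hdiff.trans hF).trans subset_union_left) (o := ∅) fun a ha x hx => by
      obtain ⟨hne, haK⟩ := mem_erase.1 ha
      exact absurd (mem_inter.1 hx).2 (disjoint_left.1 (linePts_disjoint (cfg.centreLine i u) a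
        (fun e => hne e.symm) (hKs a haK).symm) (mem_inter.1 hx).1)
  rw [card_erase_of_mem hl₀, card_empty] at h2
  have := card_erase_S (cfg := cfg) i u
  have := h.card_lines
  omega

/-- The vertical class. -/
theorem Cheap.no_vertical (h : Cheap cfg T P Cc)
    (hf : ∀ l : PLine n, l.1 = none → l ∉ cfg.dLines → l ∈ nhLines P Cc ∪ hLines T) : False := by
  have hsub : (univ.erase 0).image (fun b : ZMod n => ((none, b) : PLine n)) ⊆
      Cc.image fun c : ℕ => ((none, (c : ZMod n)) : PLine n) := by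
    intro l hl
    obtain ⟨b, hb, rfl⟩ := mem_image.1 hl
    have hD : ((none, b) : PLine n) ∉ cfg.dLines := fun hD => by
      rcases mem_dLines.1 hD with e | ⟨i, e⟩ | ⟨i, s, -, e⟩
      · exact (mem_erase.1 hb).1 (Prod.ext_iff.1 e).2
      · simp at e
      · simp at e
    have := mem_nh_of_slope (hf (none, b) rfl hD) (by simp)
    rcases mem_union.1 this with h1 | h1
    · obtain ⟨a, -, e⟩ := mem_image.1 h1
      simp at e
    · exact h1
  have hcard := (card_le_card hsub).trans card_image_le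
  rw [card_image_of_injective _ fun a b e => (Prod.ext_iff.1 e).2, card_erase_of_mem (mem_univ _),
    card_univ, ZMod.card] at hcard
  have := h.values
  have := (Fact.out : n.Prime).two_le
  rcases h.kind with ⟨h1, -⟩ | ⟨-, j, hj⟩
  · omega
  · have := card_pos.2 ⟨_, hj⟩
    omega

/-- A pencil whose centre is not a centre of a type. -/
theorem Cheap.no_star (h : Cheap cfg T P Cc) (hm : R + 11 ≤ m) {o : ZMod n × ZMod n}
    (hno : ∀ i, o ≠ (cfg.X i, cfg.Y i))
    (hf : ∀ l, o ∈ linePts l → l ∉ cfg.dLines → l ∈ nhLines P Cc ∪ hLines T) : False := by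
  have hn : 2 ≤ n := (Fact.out : n.Prime).two_le
  set L : ZMod n → PLine n := fun u => (some u, o.2 - u * o.1) with hL
  have hLo : ∀ u, o ∈ linePts (L u) := fun u => mem_linePts_some.2 (by ring)
  have hLinj : Function.Injective L := fun u u' e => Option.some.inj (Prod.ext_iff.1 e).1
  set Sl := (univ : Finset (ZMod n)).erase 0 with hSl
  have hSlc : #Sl = n - 1 := by rw [hSl, card_erase_of_mem (mem_univ _), card_univ, ZMod.card]
  have hSl0 : ∀ u ∈ Sl, (L u).1 ≠ some 0 := fun u hu e =>
    (mem_erase.1 hu).1 (Option.some.inj e)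
  set bad := Sl.filter fun u => L u ∈ cfg.dLines with hbad
  have hwhich : ∀ u ∈ bad, ∃ i, u ∈ cfg.S i ∧ o.2 - u * o.1 = cfg.Y i - u * cfg.X i := by
    intro u hu
    obtain ⟨hu, hD⟩ := mem_filter.1 hu
    rcases mem_dLines.1 hD with e | ⟨i, e⟩ | ⟨i, s, hs, e⟩
    · simp [hL] at e
    · exact absurd (Option.some.inj (Prod.ext_iff.1 e).1) (mem_erase.1 hu).1
    · obtain rfl : u = s := Option.some.inj (Prod.ext_iff.1 e).1
      exact ⟨i, hs, (Prod.ext_iff.1 e).2⟩
  have hbadc : #(bad) ≤ R + 5 := by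
    refine (card_le_card_of_injOn (t := (univ : Finset (Fin (R + 5))))
      (fun u => if hu : u ∈ bad then (hwhich u hu).choose else 0) (fun _ _ => mem_univ _)
      fun u hu u' hu' e => ?_).trans (by simp)
    simp only [mem_coe] at hu hu'
    simp only [dif_pos hu, dif_pos hu'] at e
    obtain ⟨-, h1⟩ := (hwhich u hu).choose_spec
    obtain ⟨-, h2⟩ := (hwhich u' hu').choose_spec
    rw [← e] at h2
    set i := (hwhich u hu).choose
    by_contra hne
    have hx : o.1 = cfg.X i := by
      have : (u - u') * (o.1 - cfg.X i) = 0 := by linear_combination h2 - h1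
      exact sub_eq_zero.1 ((mul_eq_zero.1 this).resolve_left (sub_ne_zero.2 hne))
    exact hno i (Prod.ext hx (by rw [hx] at h1; linear_combination h1))
  have hF : (Sl \ bad).image L ⊆ nhLines P Cc := fun l hl => by
    obtain ⟨u, hu, rfl⟩ := mem_image.1 hl
    obtain ⟨h1, h2⟩ := mem_sdiff.1 hu
    exact mem_nh_of_slope (hf _ (hLo u) fun hD => h2 (mem_filter.2 ⟨h1, hD⟩)) (hSl0 u h1)
  have hall : Sl.image L ⊆ nhLines P Cc := by
    by_contra hne
    obtain ⟨l, hl, hlnot⟩ := not_subset.1 hne
    obtain ⟨u, hu, rfl⟩ := mem_image.1 hl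
    have hub : u ∈ bad := by
      by_contra hc; exact hlnot (hF (mem_image_of_mem L (mem_sdiff.2 ⟨hu, hc⟩)))
    obtain ⟨i, hi, he⟩ := hwhich u hub
    have heq : cfg.centreLine i u = L u := by simp [centreLine, hL, he]
    have h2 := omitted_centre h.covers (i := i) (s := u) (mem_insert_of_mem hi)
      (fun hc => hlnot (mem_nh_of_slope (heq ▸ hc) (hSl0 u hu)))
      (hF.trans subset_union_left) (o := {o}) fun a ha x hx => by
        obtain ⟨u', hu', rfl⟩ := mem_image.1 ha
        rw [heq] at hx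
        refine mem_singleton.2 (card_le_one.1 (linePts_meet_le _ _ fun e => ?_) x hx o
          (mem_inter.2 ⟨hLo u, hLo u'⟩))
        exact (mem_sdiff.1 hu').2 (hLinj e ▸ hub)
    rw [card_image_of_injective _ hLinj, card_singleton,
      card_sdiff_of_subset (filter_subset _ _), hSlc] at h2
    simp only [hbad] at hbadc
    have := card_erase_S (cfg := cfg) i u
    have := h.card_lines
    omega
  have hcard := card_le_card hall
  rw [card_image_of_injective _ hLinj, hSlc] at hcard
  by_cases ho : o.1 = 0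
  swap
  · have hv : ((none, o.1) : PLine n) ∈ nhLines P Cc := by
      refine mem_nh_of_slope (hf _ (mem_linePts_none.2 rfl) fun hD => ?_) (by simp)
      rcases mem_dLines.1 hD with e | ⟨i, e⟩ | ⟨i, s, -, e⟩
      · exact ho (Prod.ext_iff.1 e).2
      · simp at e
      · simp at e
    have h2 := card_le_card (insert_subset hv hall)
    rw [card_insert_of_notMem (fun hm' => by simp [hL] at hm'),
      card_image_of_injective _ hLinj, hSlc] at h2
    have := h.card_nh
    omega
  rcases h.kind with ⟨h1, -⟩ | ⟨hN, j, hj⟩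
  · have := card_nhLines (n := n) P Cc
    omega
  have heq : Sl.image L = nhLines P Cc := eq_of_subset_of_card_le hall (by
    rw [card_image_of_injective _ hLinj, hSlc]; exact h.card_nh)
  have hT : #T ≤ 3 := by
    have := h.total; have := card_nhLines (n := n) P Cc; omega
  obtain ⟨c, hc⟩ : ∃ c : Fin 4, n + 4 * (R + 5) + c.val ∉ T := by
    by_contra hcon
    simp only [not_exists, not_not] at hcon
    have := card_le_card_of_injOn (s := (univ : Finset (Fin 4))) (t := T)
      (fun c => n + 4 * (R + 5) + c.val) (fun c _ => hcon c)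
      fun a _ b _ e => Fin.ext (by simpa using e)
    rw [card_univ, Fintype.card_fin] at this
    omega
  obtain ⟨j', hj'⟩ := (hN _ (mem_image.2 ⟨c, mem_univ _, rfl⟩)).resolve_left hc
  have val : ∀ i : Fin (R + 5), ∀ k : Fin (n - 1), (k, cfg.tvec i k) ∈ P →
      cfg.beta i (slope k) = o.2 := by
    intro i k hk
    have := heq ▸ type_line (Cc := Cc) hk
    obtain ⟨u, -, e⟩ := mem_image.1 this
    have h1 := (Prod.ext_iff.1 e).2
    simp only [hL, ho, mul_zero, sub_zero] at h1
    exact h1.symm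
  have hX : ∀ i : Fin (R + 5), i.val < 2 → cfg.X i = 0 := fun i hi =>
    cfg.X_N i fun he => by have := he.1; omega
  have h10 : ((1 : Fin (R + 5))).val = 1 := by
    rw [Fin.val_one', Nat.mod_eq_of_lt (by omega)]
  have shifted : ∀ (i : Fin (R + 5)) (k : Fin (n - 1)), i.val < 2 →
      cfg.beta i (slope k) = o.2 → slope k ∈ cfg.S i := by
    intro i k hi e
    by_contra hc
    rw [beta_of_notMem hc, hX i hi, mul_zero, sub_zero] at e
    exact hno i (Prod.ext (ho.trans (hX i hi).symm) e.symm)
  have e0 := val 0 j hj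
  have e1 := val 1 j' hj'
  have s0 := shifted 0 j (by simp) e0
  have s1 := shifted 1 j' (by omega) e1
  rw [beta_of_mem s0, hX 0 (by simp), mul_zero, sub_zero] at e0
  rw [beta_of_mem s1, hX 1 (by omega), mul_zero, sub_zero] at e1
  exact cfg.v01 0 1 (by simp) h10 _ s0 _ s1 (e0.trans e1.symm)

end Config

end Vale.Agent.P045.Gad
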