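import Mathlib
import Vale.Agent.P045.Gadget.Covers

/-!
# P045 gadget: no cheap cover near the pencil at a centre

Besides the unmodified lines through the centre, only about `m` lines are left, and they cannot
cover the crossing points of the centre lines with the shifted lines.
-/

open Finset
open scoped Classical

namespace Vale.Agent.P045.Gad

/-- The deficit inequality. -/
theorem deficit {a b p m : ℕ} (hm : 20 ≤ m) (ha : a ≤ m) (hb : b ≤ m) (hab : m + 1 ≤ a + b)
    (hp : p + m ≤ a + b + 3) (h1 : a * b ≤ 2 * p + a) (h2 : a * b ≤ 2 * p + b) : False := by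
  rcases Nat.lt_or_ge b 10 with h | h
  · nlinarith [Nat.mul_le_mul_right b (show 12 ≤ a by omega)]
  · nlinarith [Nat.mul_le_mul_left a h]

variable {n R m : ℕ} [Fact n.Prime]

namespace Config

variable {cfg : Config n R m} {T : Finset ℕ} {P : Finset (Fin (n - 1) × ℕ)} {Cc : Finset ℕ}

/-- A line other than centre and shifted lines of type `i` holds at most two crossing points. -/
theorem cross_le_two (i : Fin (R + 5)) {a : PLine n}
    (hA : ∀ s ∈ cfg.S i, a ≠ cfg.centreLine i s) (hL : ∀ t ∈ cfg.S i, a ≠ cfg.shiftLine i t)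
    {U : Finset (ZMod n × ZMod n)}
    (hU : ∀ st ∈ U, st.1 ∈ cfg.S i ∧ st.2 ∈ cfg.S i ∧ st.1 ≠ st.2) :
    #(U.filter fun st => cfg.cross i st.1 st.2 ∈ linePts a) ≤ 2 := by
  by_contra hgt
  obtain ⟨x, hx, y, hy, z, hz, hxy, hxz, hyz⟩ := two_lt_card.1 (not_le.1 hgt)
  set v := cfg.v i with hv
  have hg := cfg.v_generic i
  have hqne : ∀ {s t}, t ∈ cfg.S i → s ≠ t → qx v s t ≠ 0 := fun ht hst =>
    div_ne_zero (hg.ne_zero _ ht) (sub_ne_zero.2 hst)
  have sep : ∀ {p q : ZMod n × ZMod n}, p ∈ U.filter (fun st => cfg.cross i st.1 st.2 ∈ linePts a) →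
      q ∈ U.filter (fun st => cfg.cross i st.1 st.2 ∈ linePts a) → p ≠ q →
      p.1 ≠ q.1 ∧ p.2 ≠ q.2 := by
    intro p q hp hq hpq
    obtain ⟨hpU, hpa⟩ := mem_filter.1 hp
    obtain ⟨hqU, hqa⟩ := mem_filter.1 hq
    obtain ⟨p1, p2, p12⟩ := hU p hpU
    obtain ⟨q1, q2, q12⟩ := hU q hqU
    refine ⟨fun e => ?_, fun e => ?_⟩
    · have hne2 : p.2 ≠ q.2 := fun e2 => hpq (Prod.ext e e2)
      have hpts : cfg.cross i p.1 p.2 ≠ cfg.cross i q.1 q.2 := fun e2 => hne2 <| by
        rw [← e] at e2
        exact cross_inj_right (mem_insert_of_mem p1) (mem_erase.2 ⟨p12.symm, p2⟩)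
          (mem_erase.2 ⟨(e ▸ q12).symm, q2⟩) e2
      refine hpts (card_le_one.1 (linePts_meet_le a (cfg.centreLine i p.1) (hA _ p1)) _
        (mem_inter.2 ⟨hpa, cross_mem_centre i _ _⟩) _ (mem_inter.2 ⟨hqa, ?_⟩))
      rw [e]; exact cross_mem_centre i _ _
    · have hne1 : p.1 ≠ q.1 := fun e1 => hpq (Prod.ext e1 e)
      have hpts : cfg.cross i p.1 p.2 ≠ cfg.cross i q.1 q.2 := fun e2 => hne1 <| by
        have hx : qx v p.1 p.2 = qx v q.1 q.2 := add_left_cancel (congrArg Prod.fst e2)
        have hy : p.1 * qx v p.1 p.2 = q.1 * qx v q.1 q.2 :=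
          add_left_cancel (congrArg Prod.snd e2)
        rw [← hx] at hy
        exact mul_right_cancel₀ (hqne p2 p12) hy
      refine hpts (card_le_one.1 (linePts_meet_le a (cfg.shiftLine i p.2) (hL _ p2)) _
        (mem_inter.2 ⟨hpa, cross_mem_shift i p12⟩) _ (mem_inter.2 ⟨hqa, ?_⟩))
      rw [e]; exact cross_mem_shift i q12
  obtain ⟨a12, b12⟩ := sep hx hy hxy
  obtain ⟨a23, b23⟩ := sep hy hz hyz
  obtain ⟨a31, b31⟩ := sep hz hx hxz.symm
  obtain ⟨hxU, hxa⟩ := mem_filter.1 hx
  obtain ⟨hyU, hya⟩ := mem_filter.1 hy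
  obtain ⟨hzU, hza⟩ := mem_filter.1 hz
  obtain ⟨x1, x2, x12⟩ := hU x hxU
  obtain ⟨y1, y2, y12⟩ := hU y hyU
  obtain ⟨z1, z2, z12⟩ := hU z hzU
  refine hg.det x.1 (mem_insert_of_mem x1) y.1 (mem_insert_of_mem y1) z.1 (mem_insert_of_mem z1)
    x.2 x2 y.2 y2 z.2 z2 a12 a23 a31 b12 b23 b31 x12 y12 z12 ?_
  obtain ⟨(_ | σ), c⟩ := a
  · rw [mem_linePts_none] at hxa hya hza
    simp only [cross, ← hv] at hxa hya hza
    have e1 := add_left_cancel (hxa.trans hya.symm)
    have e2 := add_left_cancel (hxa.trans hza.symm)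
    simp only [det3]
    rw [← hv, ← e1, ← e2]
    ring
  · rw [mem_linePts_some] at hxa hya hza
    simp only [cross, ← hv] at hxa hya hza
    simp only [det3]
    linear_combination (qx v z.1 z.2 - qx v y.1 y.2) * hxa +
      (qx v x.1 x.2 - qx v z.1 z.2) * hya + (qx v y.1 y.2 - qx v x.1 x.2) * hza

theorem centre_ne_beta {i l : Fin (R + 5)} (hi : ¬Ext i) (hl : ¬Ext l) (hil : i ≠ l)
    (s : ZMod n) : cfg.Y i - s * cfg.X i ≠ cfg.beta l s := by
  intro e
  by_cases h : s ∈ cfg.S l
  · rw [beta_of_mem h] at e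
    exact cfg.v_centre l s h i e.symm
  · rw [beta_of_notMem h, cfg.X_N i hi, cfg.X_N l hl] at e
    exact hil (cfg.Y_inj (by linear_combination e))

/-- The pencil at the centre of a type. -/
theorem Cheap.no_centre (h : Cheap cfg T P Cc) (hm : 20 ≤ m) (i : Fin (R + 5))
    (hf : ∀ l, (cfg.X i, cfg.Y i) ∈ linePts l → l ∉ cfg.dLines →
      l ∈ nhLines P Cc ∪ hLines T) : False := by
  set nh := nhLines (n := n) P Cc with hnh
  set Ls := nh ∪ hLines T with hLs
  set A := cfg.centreLine i
  set L := cfg.shiftLine i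
  have hAinj : Function.Injective A := fun u u' e => Option.some.inj (Prod.ext_iff.1 e).1
  have hLinj : Function.Injective L := fun u u' e => Option.some.inj (Prod.ext_iff.1 e).1
  have hAo : ∀ u, (cfg.X i, cfg.Y i) ∈ linePts (A u) := fun u =>
    mem_linePts_some.2 (by ring)
  set U0 := (univ : Finset (ZMod n)).erase 0 \ cfg.S i with hU0
  have hU0c : #U0 + m = n - 1 := by
    have hsub : cfg.S i ⊆ (univ : Finset (ZMod n)).erase 0 := fun s hs =>
      mem_erase.2 ⟨fun e => cfg.S_ne i (e ▸ hs), mem_univ _⟩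
    have := card_sdiff_add_card_eq_card hsub
    rw [cfg.S_card, card_erase_of_mem (mem_univ _), card_univ, ZMod.card] at this
    exact this
  have hslope : ∀ u, u ≠ 0 → (A u).1 ≠ some 0 := fun u hu e => hu (Option.some.inj e)
  have hF : U0.image A ⊆ nh := fun l hl => by
    obtain ⟨u, hu, rfl⟩ := mem_image.1 hl
    obtain ⟨hu, huS⟩ := mem_sdiff.1 hu
    refine mem_nh_of_slope (hf _ (hAo u) fun hD => ?_) (hslope u (mem_erase.1 hu).1)
    rcases mem_dLines.1 hD with e | ⟨l, e⟩ | ⟨l, s, hs, e⟩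
    · simp [A, centreLine] at e
    · exact hslope u (mem_erase.1 hu).1 (Prod.ext_iff.1 e).1
    · obtain rfl : u = s := Option.some.inj (Prod.ext_iff.1 e).1
      by_cases hli : l = i
      · exact huS (hli ▸ hs)
      · exact cfg.S_avoid l u hs i l (Ne.symm hli) (Prod.ext_iff.1 e).2
  set SA := (cfg.S i).filter fun s => A s ∈ Ls with hSA
  set SL := (cfg.S i).filter fun s => L s ∈ Ls with hSL
  have hS0 : ∀ {s}, s ∈ cfg.S i → s ≠ 0 := fun hs e => cfg.S_ne i (e ▸ hs)
  have hAL : ∀ s, s ∈ cfg.S i → ∀ u, A u ≠ L s := fun s hs u e => by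
    obtain rfl : u = s := Option.some.inj (Prod.ext_iff.1 e).1
    exact cfg.v_centre i u hs i (Prod.ext_iff.1 e).2.symm
  have hAin : SA.image A ⊆ nh := fun l hl => by
    obtain ⟨s, hs, rfl⟩ := mem_image.1 hl
    exact mem_nh_of_slope (mem_filter.1 hs).2 (hslope s (hS0 (mem_filter.1 hs).1))
  have hLin : SL.image L ⊆ nh := fun l hl => by
    obtain ⟨s, hs, rfl⟩ := mem_image.1 hl
    exact mem_nh_of_slope (mem_filter.1 hs).2
      fun e => hS0 (mem_filter.1 hs).1 (Option.some.inj e)
  set Fix := U0.image A ∪ SA.image A ∪ SL.image L with hFix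
  have hFixsub : Fix ⊆ nh := union_subset (union_subset hF hAin) hLin
  have hFixc : #Fix = #U0 + #SA + #SL := by
    rw [hFix, card_union_of_disjoint, card_union_of_disjoint, card_image_of_injective _ hAinj,
      card_image_of_injective _ hAinj, card_image_of_injective _ hLinj]
    · exact disjoint_left.2 fun l h1 h2 => by
        obtain ⟨u, hu, rfl⟩ := mem_image.1 h1
        obtain ⟨s, hs, e⟩ := mem_image.1 h2
        exact (mem_sdiff.1 hu).2 (hAinj e ▸ (mem_filter.1 hs).1)
    · exact disjoint_left.2 fun l h1 h2 => by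
        obtain ⟨s, hs, rfl⟩ := mem_image.1 h2
        rcases mem_union.1 h1 with h1 | h1 <;> obtain ⟨u, -, e⟩ := mem_image.1 h1 <;>
          exact hAL s (mem_filter.1 hs).1 u e
  -- one value outside `Fix` is needed in every case
  have hspare : #Fix + 1 ≤ n - 1 := by
    have hx := h.card_nh
    rw [← hnh] at hx
    by_cases hi : Ext i
    · have hv : ((none, cfg.X i) : PLine n) ∈ nh := by
        refine mem_nh_of_slope (hf _ (mem_linePts_none.2 rfl) fun hD => ?_) (by simp)
        rcases mem_dLines.1 hD with e | ⟨l, e⟩ | ⟨l, s, -, e⟩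
        · exact cfg.X_E i hi (Prod.ext_iff.1 e).2
        · simp at e
        · simp at e
      have h2 := card_le_card (insert_subset hv hFixsub)
      rw [card_insert_of_notMem (fun hm' => by
        simp [hFix, A, L, centreLine, shiftLine] at hm')] at h2
      omega
    rcases h.kind with ⟨h1, -⟩ | ⟨hN, j, hj⟩
    · have := card_nhLines (n := n) P Cc
      have := card_le_card hFixsub
      have := (Fact.out : n.Prime).two_le
      rw [← hnh] at *
      omega
    have hnhx := card_nhLines (n := n) P Cc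
    rw [← hnh] at hnhx
    have hFc := card_le_card hFixsub
    by_cases hall : i = 0 ∧ ∀ c : Fin 4, n + 4 * (R + 5) + c.val ∈ T
    · have := card_le_card_of_injOn (s := (univ : Finset (Fin 4))) (t := T)
        (fun c => n + 4 * (R + 5) + c.val) (fun c _ => hall.2 c)
        fun a _ b _ e => Fin.ext (by simpa using e)
      rw [card_univ, Fintype.card_fin] at this
      have := h.total
      omega
    obtain ⟨l, k, hli, hl, hk⟩ : ∃ l k, i ≠ l ∧ ¬Ext l ∧ (k, cfg.tvec l k) ∈ P := by
      by_cases h0 : i = 0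
      · obtain ⟨c, hc⟩ := not_forall.1 fun hh => hall ⟨h0, hh⟩
        obtain ⟨j', hj'⟩ := (hN _ (mem_image.2 ⟨c, mem_univ _, rfl⟩)).resolve_left hc
        refine ⟨1, j', fun e => ?_, fun he => ?_, hj'⟩
        · rw [h0] at e
          have := congrArg Fin.val e
          simp [Nat.mod_eq_of_lt] at this
        · have := he.1
          simp at this
      · exact ⟨0, j, h0, fun he => by have := he.1; simp at this, hj⟩
    have hv := type_line (Cc := Cc) hk
    have hnot : (some (slope k), cfg.beta l (slope k)) ∉ Fix := by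
      intro hm'
      rcases mem_union.1 hm' with hm' | hm'
      · rcases mem_union.1 hm' with hm' | hm' <;> obtain ⟨u, -, e⟩ := mem_image.1 hm' <;>
        · obtain rfl : u = slope k := Option.some.inj (Prod.ext_iff.1 e).1
          exact centre_ne_beta hi hl hli _ (Prod.ext_iff.1 e).2
      · obtain ⟨u, hu, e⟩ := mem_image.1 hm'
        obtain rfl : u = slope k := Option.some.inj (Prod.ext_iff.1 e).1
        refine beta_ne (cfg := cfg) hi hl hli (slope k) ?_
        rw [beta_of_mem (mem_filter.1 hu).1]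
        exact (Prod.ext_iff.1 e).2
    rw [← hnh] at hv
    have h2 := card_le_card (insert_subset hv hFixsub)
    rw [card_insert_of_notMem hnot] at h2
    omega
  -- the crossing points not covered by the lines in `Fix`
  set As := cfg.S i \ SA
  set Bs := cfg.S i \ SL
  set U := (As ×ˢ Bs).filter fun st => st.1 ≠ st.2
  have hU : ∀ st ∈ U, st.1 ∈ cfg.S i ∧ st.2 ∈ cfg.S i ∧ st.1 ≠ st.2 := fun st hst => by
    obtain ⟨h1, h2⟩ := mem_filter.1 hst
    obtain ⟨h1a, h1b⟩ := mem_product.1 h1
    exact ⟨(mem_sdiff.1 h1a).1, (mem_sdiff.1 h1b).1, h2⟩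
  set Oth := Ls \ Fix
  have hcov : U ⊆ Oth.biUnion fun a => U.filter fun st => cfg.cross i st.1 st.2 ∈ linePts a := by
    intro st hst
    obtain ⟨hs, ht, hne⟩ := hU st hst
    obtain ⟨hsA, htL⟩ := mem_product.1 (mem_filter.1 hst).1
    obtain ⟨a, ha, hpa⟩ := cell_covered h.covers (compat_cross (i := i) (mem_insert_of_mem hs) ht hne)
    refine mem_biUnion.2 ⟨a, mem_sdiff.2 ⟨ha, fun haF => ?_⟩, mem_filter.2 ⟨hst, hpa⟩⟩
    have hne0 : qx (cfg.v i) st.1 st.2 ≠ 0 :=
      div_ne_zero ((cfg.v_generic i).ne_zero _ ht) (sub_ne_zero.2 hne)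
    -- another line through the centre
    have viaA : ∀ u, a = A u → u = st.1 := fun u e => by
      rw [e] at hpa
      have h1 := mem_linePts_some.1 hpa
      simp only [cross] at h1
      have : (st.1 - u) * qx (cfg.v i) st.1 st.2 = 0 := by linear_combination h1
      exact (sub_eq_zero.1 ((mul_eq_zero.1 this).resolve_right hne0)).symm
    rcases mem_union.1 haF with haF | haF
    · rcases mem_union.1 haF with haF | haF <;> obtain ⟨u, hu, rfl⟩ := mem_image.1 haF <;>
        obtain rfl := viaA u rfl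
      · exact (mem_sdiff.1 hu).2 hs
      · exact (mem_sdiff.1 hsA).2 hu
    · obtain ⟨u, hu, rfl⟩ := mem_image.1 haF
      have h1 := mem_linePts_some.1 hpa
      simp only [cross] at h1
      have h1' : qx (cfg.v i) st.1 st.2 * (st.1 - u) = cfg.v i u := by linear_combination h1
      have hu' := (mem_filter.1 hu).1
      by_cases hsu : st.1 = u
      · rw [hsu, sub_self, mul_zero] at h1'
        exact (cfg.v_generic i).ne_zero _ hu' h1'.symm
      · have he : qx (cfg.v i) st.1 u = qx (cfg.v i) st.1 st.2 := by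
          change cfg.v i u / (st.1 - u) = qx (cfg.v i) st.1 st.2
          rw [div_eq_iff (sub_ne_zero.2 hsu)]
          exact h1'.symm
        obtain rfl := (cfg.v_generic i).inj _ (mem_insert_of_mem hs) _ hu' _ ht hsu hne he
        exact (mem_sdiff.1 htL).2 hu
  have hU2 : #U ≤ 2 * #Oth := by
    refine ((card_le_card hcov).trans card_biUnion_le).trans ?_
    refine (sum_le_sum fun a ha => cross_le_two i (fun s hs e => ?_) (fun t ht e => ?_) hU).trans
      (by rw [sum_const, smul_eq_mul, Nat.mul_comm])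
    · exact (mem_sdiff.1 ha).2 (mem_union_left _ (mem_union_right _ (mem_image.2
        ⟨s, mem_filter.2 ⟨hs, by rw [← show a = A s from e]; exact (mem_sdiff.1 ha).1⟩, e.symm⟩)))
    · exact (mem_sdiff.1 ha).2 (mem_union_right _ (mem_image.2
        ⟨t, mem_filter.2 ⟨ht, by rw [← show a = L t from e]; exact (mem_sdiff.1 ha).1⟩, e.symm⟩))
  have hprod : #U + #((As ×ˢ Bs).filter fun st => ¬st.1 ≠ st.2) = #(As ×ˢ Bs) :=
    card_filter_add_card_filter_not (fun st : ZMod n × ZMod n => st.1 ≠ st.2)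
  have hdA : #((As ×ˢ Bs).filter fun st => ¬st.1 ≠ st.2) ≤ #As :=
    card_le_card_of_injOn Prod.fst (fun st hst => (mem_product.1 (mem_filter.1 hst).1).1)
      fun p hp q hq e => Prod.ext e ((not_not.1 (mem_filter.1 hp).2).symm.trans
        (e.trans (not_not.1 (mem_filter.1 hq).2)))
  have hdB : #((As ×ˢ Bs).filter fun st => ¬st.1 ≠ st.2) ≤ #Bs :=
    card_le_card_of_injOn Prod.snd (fun st hst => (mem_product.1 (mem_filter.1 hst).1).2)
      fun p hp q hq e => Prod.ext ((not_not.1 (mem_filter.1 hp).2).trans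
        (e.trans (not_not.1 (mem_filter.1 hq).2).symm)) e
  rw [card_product] at hprod
  have hAs : #As + #SA = m := by
    rw [← cfg.S_card i]; exact card_sdiff_add_card_eq_card (filter_subset _ _)
  have hBs : #Bs + #SL = m := by
    rw [← cfg.S_card i]; exact card_sdiff_add_card_eq_card (filter_subset _ _)
  have hOth : #Oth + #Fix = #Ls :=
    card_sdiff_add_card_eq_card (hFixsub.trans subset_union_left)
  have hLsc := h.card_lines
  rw [← hnh, ← hLs] at hLsc
  exact deficit (a := #As) (b := #Bs) (p := #Oth) hm (by omega) (by omega) (by omega) (by omega)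
    (by omega) (by omega)

end Config

end Vale.Agent.P045.Gad
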