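import Mathlib
import Vale.Agent.P045.Gadget.Covers

/-!
# P045 gadget: no cheap cover near the class of rows

Then almost all slots are killed, and the five types with their own slots need three vertices.
-/

open Finset
open scoped Classical

namespace Vale.Agent.P045.Gad

variable {n R m : ℕ} [Fact n.Prime]

namespace Config

variable {cfg : Config n R m} {T : Finset ℕ} {P : Finset (Fin (n - 1) × ℕ)} {Cc : Finset ℕ}

/-- One value covers at most two of the five special types. -/
theorem value_two_types {i j l : Fin (R + 5)} (hi : i.val < 5) (hj : j.val < 5) (hl : l.val < 5)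
    (h1 : i ≠ j) (h2 : j ≠ l) (h3 : l ≠ i) (k : Fin (n - 1)) (b : ℕ)
    (ei : cfg.tvec i k = b) (ej : cfg.tvec j k = b) (el : cfg.tvec l k = b) : False := by
  have eij := ZMod.val_injective n (ei.trans ej.symm)
  have eil := ZMod.val_injective n (ei.trans el.symm)
  set u := slope k
  have free : ∀ {a c : Fin (R + 5)}, a ≠ c → cfg.beta a u = cfg.beta c u → u ∉ cfg.S a := by
    intro a c hac e ha
    rw [beta_of_mem ha, beta_of_notMem fun hc => disjoint_left.1 (cfg.S_disj a c hac) ha hc] at e
    exact cfg.v_centre a u ha c e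
  have fi := free h1 eij
  have fj := free h1.symm eij.symm
  have fl := free h3 eil.symm
  rw [beta_of_notMem fi, beta_of_notMem fj] at eij
  rw [beta_of_notMem fi, beta_of_notMem fl] at eil
  refine cfg.five i j l hi hj hl h1 h2 h3 ?_
  linear_combination (cfg.X j - cfg.X i) * eil - (cfg.X l - cfg.X i) * eij

/-- The five special types. -/
def special (R : ℕ) : Finset (Fin (R + 5)) := univ.filter fun i => i.val < 5

/-- Covering a set of special types takes one value for two of them, or one special each. -/
theorem types_le {W : Finset (Fin (R + 5))} (hW : ∀ i ∈ W, i.val < 5)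
    (hc : ∀ i ∈ W, (Ext i ∧ (cfg.X i).val ∈ Cc) ∨ ∃ j, (j, cfg.tvec i j) ∈ P) :
    #W ≤ 2 * #P + #Cc := by
  have hsub : W ⊆ (W.filter fun i => Ext i ∧ (cfg.X i).val ∈ Cc) ∪
      P.biUnion fun jb => W.filter fun i => cfg.tvec i jb.1 = jb.2 := by
    intro i hi
    rcases hc i hi with h | ⟨j, hj⟩
    · exact mem_union_left _ (mem_filter.2 ⟨hi, h⟩)
    · exact mem_union_right _ (mem_biUnion.2 ⟨_, hj, mem_filter.2 ⟨hi, rfl⟩⟩)
  refine ((card_le_card hsub).trans (card_union_le _ _)).trans ?_
  rw [Nat.add_comm]
  refine Nat.add_le_add (card_biUnion_le.trans ((sum_le_sum fun jb _ => ?_).trans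
    (by rw [sum_const, smul_eq_mul, Nat.mul_comm]))) ?_
  · by_contra hgt
    obtain ⟨x, hx, y, hy, z, hz, hxy, hxz, hyz⟩ := two_lt_card.1 (not_le.1 hgt)
    obtain ⟨hx, ex⟩ := mem_filter.1 hx
    obtain ⟨hy, ey⟩ := mem_filter.1 hy
    obtain ⟨hz, ez⟩ := mem_filter.1 hz
    exact value_two_types (hW x hx) (hW y hy) (hW z hz) hxy hyz hxz.symm jb.1 jb.2 ex ey ez
  · refine card_le_card_of_injOn (fun i => (cfg.X i).val) (fun i hi => (mem_filter.1 hi).2.2)
      fun a ha b hb e => ?_
    exact cfg.X_inj a b (mem_filter.1 ha).2.1 (mem_filter.1 hb).2.1 (ZMod.val_injective n e)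

/-- The class of rows. -/
theorem Cheap.no_rows (h : Cheap cfg T P Cc) (hm : R + 8 ≤ m)
    (hf : ∀ l : PLine n, l.1 = some 0 → l ∉ cfg.dLines → l ∈ nhLines P Cc ∪ hLines T) :
    False := by
  set row : ZMod n → PLine n := fun b => (some 0, b)
  have hrinj : Function.Injective row := fun a b e => (Prod.ext_iff.1 e).2
  have hrow : ∀ {b}, row b ∈ nhLines P Cc ∪ hLines T → row b ∈ hLines T := fun hb =>
    (mem_union.1 hb).resolve_left fun h' => nhLines_slope h' rfl
  have hord : ((univ : Finset (ZMod n)) \ univ.image cfg.Y).image row ⊆ hLines T := by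
    intro l hl
    obtain ⟨b, hb, rfl⟩ := mem_image.1 hl
    refine hrow (hf _ rfl fun hD => ?_)
    rcases mem_dLines.1 hD with e | ⟨i, e⟩ | ⟨i, s, hs, e⟩
    · simp [row] at e
    · exact (mem_sdiff.1 hb).2 (mem_image.2 ⟨i, mem_univ _, ((Prod.ext_iff.1 e).2).symm⟩)
    · exact cfg.S_ne i ((Option.some.inj (Prod.ext_iff.1 e).1).symm ▸ hs)
  have hordc := card_le_card hord
  rw [card_image_of_injective _ hrinj, card_univ_sdiff, ZMod.card,
    card_image_of_injective _ cfg.Y_inj, card_univ, Fintype.card_fin] at hordc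
  -- every row is killed
  have hall : (univ : Finset (ZMod n)).image row ⊆ hLines T := by
    intro l hl
    obtain ⟨b, -, rfl⟩ := mem_image.1 hl
    by_cases hb : b ∈ univ.image cfg.Y
    swap
    · exact hord (mem_image_of_mem row (mem_sdiff.2 ⟨mem_univ _, hb⟩))
    obtain ⟨i, -, rfl⟩ := mem_image.1 hb
    by_contra hnot
    have heq : cfg.centreLine i 0 = row (cfg.Y i) := by simp [centreLine, row]
    have h2 := omitted_centre h.covers (i := i) (s := 0) (mem_insert_self _ _)
      (fun hc => hnot (hrow (heq ▸ hc))) (F := hLines T) subset_union_right (o := ∅)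
      fun a ha x hx => absurd (mem_inter.1 hx).2 (disjoint_left.1
        (linePts_disjoint (cfg.centreLine i 0) a (fun e => hnot (heq ▸ e ▸ ha))
          (hLines_slope ha).symm) (mem_inter.1 hx).1)
    rw [erase_eq_of_notMem (cfg.S_ne i), cfg.S_card, card_empty] at h2
    have := h.card_lines
    omega
  have hT : n ≤ #(T.filter (· < n)) := by
    have := (card_le_card hall).trans card_image_le
    rwa [card_image_of_injective _ hrinj, card_univ, ZMod.card] at this
  have hTn := card_filter_add_card_filter_not (s := T) (· < n)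
  -- some copy of each extra type survives
  have hext : ∀ i, Ext i → (Ext i ∧ (cfg.X i).val ∈ Cc) ∨ ∃ j, (j, cfg.tvec i j) ∈ P := by
    intro i hi
    obtain ⟨c, hc⟩ : ∃ c : Fin 4, n + (4 * i.val + c.val) ∉ T := by
      by_contra hcon
      simp only [not_exists, not_not] at hcon
      have := card_le_card_of_injOn (s := (univ : Finset (Fin 4))) (t := T.filter fun x => ¬x < n)
        (fun c => n + (4 * i.val + c.val)) (fun c _ => mem_filter.2 ⟨hcon c, by simp⟩)
        fun a _ b _ e => Fin.ext (by simpa using e)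
      rw [card_univ, Fintype.card_fin] at this
      have := h.total
      omega
    rcases h.covers _ (mem_union_right _ (mem_image.2
      ⟨(i, c), mem_filter.2 ⟨mem_univ _, hi⟩, rfl⟩)) with h1 | h1 | h1
    · exact absurd h1 hc
    · exact Or.inl ⟨hi, h1⟩
    · exact Or.inr h1
  have htotal := h.total
  rcases h.kind with ⟨-, h2⟩ | ⟨hN, h0⟩
  · have := types_le (W := univ.filter (Ext (R := R))) (fun i hi => (mem_filter.1 hi).2.2)
      fun i hi => hext i (mem_filter.1 hi).2
    have h3 : 3 ≤ #(univ.filter (Ext (R := R))) := by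
      have := card_le_card_of_injOn (s := (univ : Finset (Fin 3)))
        (t := univ.filter (Ext (R := R))) (fun c => (⟨2 + c.val, by omega⟩ : Fin (R + 5)))
        (fun c _ => mem_filter.2 ⟨mem_univ _, by simp [Ext]; omega⟩)
        fun a _ b _ e => Fin.ext (by simpa using e)
      rwa [card_univ, Fintype.card_fin] at this
    omega
  obtain ⟨c, hc⟩ : ∃ c : Fin 4, n + 4 * (R + 5) + c.val ∉ T := by
    by_contra hcon
    simp only [not_exists, not_not] at hcon
    have := card_le_card_of_injOn (s := (univ : Finset (Fin 4))) (t := T.filter fun x => ¬x < n)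
      (fun c => n + 4 * (R + 5) + c.val) (fun c _ => mem_filter.2 ⟨hcon c, by simp; omega⟩)
      fun a _ b _ e => Fin.ext (by simpa using e)
    rw [card_univ, Fintype.card_fin] at this
    omega
  have h1 : ∃ j, (j, cfg.tvec 1 j) ∈ P := (hN _ (mem_image.2 ⟨c, mem_univ _, rfl⟩)).resolve_left hc
  have := types_le (W := special R) (fun i hi => (mem_filter.1 hi).2) fun i hi => by
    by_cases he : Ext i
    · exact hext i he
    have hi5 := (mem_filter.1 hi).2
    have : i.val = 0 ∨ i.val = 1 := by
      simp only [Ext, not_and, not_lt] at he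
      omega
    rcases this with e | e
    · rw [show i = 0 from Fin.ext e]; exact Or.inr h0
    · rw [show i = 1 from Fin.ext (by simp [e])]; exact Or.inr h1
  have h5 : 5 ≤ #(special R) := by
    have := card_le_card_of_injOn (s := (univ : Finset (Fin 5))) (t := special R)
      (fun c => (⟨c.val, by omega⟩ : Fin (R + 5)))
      (fun c _ => mem_filter.2 ⟨mem_univ _, c.isLt⟩)
      fun a _ b _ e => Fin.ext (by simpa using e)
    rwa [card_univ, Fintype.card_fin] at this
  omega

end Config

end Vale.Agent.P045.Gad
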