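import Mathlib
import Vale.Agent.P045.Gadget.Centre
import Vale.Agent.P045.Gadget.Rows

/-!
# P045 gadget: existence
-/

open Finset
open scoped Classical

namespace Vale.Agent.P045.Gad

variable {n R m : ℕ} [Fact n.Prime]

namespace Config

variable {cfg : Config n R m} {T : Finset ℕ} {P : Finset (Fin (n - 1) × ℕ)} {Cc : Finset ℕ}

/-- There is no cheap cover. -/
theorem not_cheap (hn : Large n R m) (hm : 2 * R + 30 ≤ m) (h : Cheap cfg T P Cc) : False := by
  rcases forced hn h.covers h.total with ⟨o, ho⟩ | ⟨c, hc⟩
  · by_cases hcen : ∃ i, o = (cfg.X i, cfg.Y i)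
    · obtain ⟨i, rfl⟩ := hcen
      exact h.no_centre (by omega) i ho
    · exact h.no_star (by omega) (not_exists.1 hcen) ho
  · rcases c with _ | u
    · exact h.no_vertical hc
    · rcases eq_or_ne u 0 with rfl | hu
      · exact h.no_rows (by omega) hc
      · exact h.no_class (by omega) hu hc

variable (cfg) in
/-- The gadget of a configuration. -/
noncomputable def toGadget (hn : Large n R m) (hm : 2 * R + 30 ≤ m) : Gadget R where
  k := n - 1
  G := cfg.gEdges
  N := cfg.nEdges
  t0 := cfg.tvec 0
  w i := cfg.tvec ⟨i.val + 5, by omega⟩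
  gg e he f hf := gEdges_meet he hf
  gn e he f hf _ := by
    obtain ⟨c, -, rfl⟩ := mem_image.1 hf
    exact meets_cell he 1 fun h => by have := h.1; simp at this
  gt e he := meets_cell he 0 fun h => by have := h.1; simp at this
  gw e he i := meets_cell he _ fun h => by have := h.2; simp only at this; omega
  w_inj i i' j e := by
    by_contra hne
    exact tvec_ne (cfg := cfg) (fun h => by have := h.2; simp only at this; omega)
      (fun h => by have := h.2; simp only at this; omega)
      (fun h => hne (Fin.ext (by simpa using h))) j e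
  w_ne_t0 i j e := tvec_ne (cfg := cfg) (fun h => by have := h.2; simp only at this; omega)
    (fun h => by have := h.1; simp at this) (fun h => by simp [Fin.ext_iff] at h) j e
  keep T P Cc hc := by
    by_contra hlt
    have h2 : 2 ≤ n := (Fact.out : n.Prime).two_le
    refine not_cheap (cfg := cfg) hn hm (T := T) (P := P) (Cc := Cc)
      ⟨hc, ?_, ?_, Or.inl ⟨?_, ?_⟩⟩ <;> omega
  drop T P Cc hc hN h0 := by
    by_contra hlt
    have h2 : 2 ≤ n := (Fact.out : n.Prime).two_le
    exact not_cheap (cfg := cfg) hn hm (T := T) (P := P) (Cc := Cc)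
      ⟨hc, by omega, by omega, Or.inr ⟨hN, h0⟩⟩

end Config

end Vale.Agent.P045.Gad

namespace Vale.Agent.P045

/-- Gadgets exist for every number of roles and with `k` as large as desired. -/
theorem gadget_exists : GadgetExists := by
  intro R K
  obtain ⟨n₀, hn₀⟩ := Gad.exists_config R (2 * R + 30)
  set C := Gad.dBound R (2 * R + 30) with hC
  obtain ⟨n, hn, hp⟩ := Nat.exists_infinite_primes
    (n₀ + K + 1 + (200 * (2 * C + 1) * (2 * C + 1) + 20 * C + 6))
  have : Fact n.Prime := ⟨hp⟩
  obtain ⟨cfg⟩ := hn₀ n this (by omega)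
  refine ⟨cfg.toGadget ?_ le_rfl, ?_⟩
  · unfold Gad.Large
    rw [← hC]
    omega
  · change K ≤ n - 1
    omega

end Vale.Agent.P045
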